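import Vale.Agent.P101.Simple

/-! P101: spectral detection modulo a maximal ideal, without quotient norms. -/

namespace Vale.Agent.P101

open scoped CStarAlgebra

variable {E F : Type*} [CStarAlgebra E] [CStarAlgebra F]

/-- The clamp to `[0, 1]`. -/
noncomputable def ramp (x : ℝ) : ℝ := min 1 (max 0 x)

/-- The `j`th hat on the grid of mesh `η` starting at `-M`. -/
noncomputable def hat (M η : ℝ) (j : ℕ) (t : ℝ) : ℝ :=
  ramp ((t + M) / η - j + 1) - ramp ((t + M) / η - j)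

@[fun_prop]
theorem continuous_hat (M η : ℝ) (j : ℕ) : Continuous (hat M η j) := by
  unfold hat ramp
  fun_prop

theorem hat_nonneg (M η : ℝ) (j : ℕ) (t : ℝ) : 0 ≤ hat M η j t :=
  sub_nonneg.mpr (min_le_min_left _ (max_le_max_left _ (by linarith)))

theorem abs_le_of_hat_ne_zero {M η : ℝ} (hη : 0 < η) {j : ℕ} {t : ℝ} (h : hat M η j t ≠ 0) :
    |t - (j * η - M)| ≤ η := by
  set x := (t + M) / η - j with hx
  have h1 : -1 ≤ x := by
    by_contra! hc
    exact h (by simp [hat, ramp, ← hx, max_eq_left hc.le, max_eq_left (show x + 1 ≤ 0 by linarith),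
      max_eq_left (show x ≤ 0 by linarith)])
  have h2 : x ≤ 1 := by
    by_contra! hc
    exact h (by simp [hat, ramp, ← hx, max_eq_right (show 0 ≤ x by linarith),
      max_eq_right (show 0 ≤ x + 1 by linarith), min_eq_left hc.le,
      min_eq_left (show 1 ≤ x + 1 by linarith)])
  have e : t - (j * η - M) = x * η := by
    rw [hx]
    field_simp
    ring
  rw [e, abs_mul, abs_of_pos hη]
  exact mul_le_of_le_one_left hη.le (abs_le.mpr ⟨h1, h2⟩)

theorem sum_hat {M η : ℝ} (hη : 0 < η) {t : ℝ} (h1 : -M ≤ t) (h2 : t ≤ M) :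
    ∑ j ∈ Finset.range (⌈2 * M / η⌉₊ + 1), hat M η j t = 1 := by
  set L := ⌈2 * M / η⌉₊
  set x := (t + M) / η with hx
  have hx0 : 0 ≤ x := div_nonneg (by linarith) hη.le
  have hxL : x ≤ L := le_trans (div_le_div_of_nonneg_right (by linarith) hη.le) (Nat.le_ceil _)
  have e : ∀ j : ℕ, hat M η j t = ramp (x - j + 1) - ramp (x - (j + 1 : ℕ) + 1) := fun j => by
    simp only [hat, ← hx]
    push_cast
    congr 2
    ring
  rw [Finset.sum_congr rfl fun j _ => e j,
    Finset.sum_range_sub' (fun j : ℕ => ramp (x - j + 1))]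
  simp only [ramp, Nat.cast_zero, sub_zero, Nat.cast_add, Nat.cast_one]
  rw [max_eq_right (by linarith), min_eq_left (by linarith),
    max_eq_left (by linarith), min_eq_right zero_le_one, sub_zero]

theorem MaxIdeal.not_isUnit {J : MaxIdeal E} {x : E} (hx : x ∈ J.toSubmodule) : ¬IsUnit x := by
  rintro ⟨u, rfl⟩
  exact J.one_notMem (by simpa using J.mul_left (↑u⁻¹ : E) hx)

theorem MaxIdeal.mem_of_one_sub_mul {J : MaxIdeal E} {Z U : E} (hZ : ‖Z‖ < 1)
    (h : (1 - Z) * U ∈ J.toSubmodule) : U ∈ J.toSubmodule := by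
  obtain ⟨u, hu⟩ := isUnit_one_sub_of_norm_lt_one hZ
  have := J.mul_left (↑u⁻¹ : E) h
  rwa [← mul_assoc, ← hu, Units.inv_mul, one_mul] at this

/-- Two far apart grid points whose hats survive modulo the ideal. -/
theorem exists_two_points (J : MaxIdeal E) (ψ : F →⋆ₐ[ℂ] E) {H : F} (hH : IsSelfAdjoint H)
    {n : ℕ} (a c d : Fin n → F) (hid : ∑ t, a t * (H * c t - c t * H) * d t = 1)
    {M K η : ℝ} (hM : ‖H‖ ≤ M) (hK : 0 < K) (hK' : ∑ t, ‖a t‖ * ‖c t‖ * ‖d t‖ ≤ K)
    (hη : 0 < η) (hηK : η * (8 * K) ≤ 1) :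
    ∃ i j, i < ⌈2 * M / η⌉₊ + 1 ∧ j < ⌈2 * M / η⌉₊ + 1 ∧
      ψ (cfc (hat M η i) H) ∉ J.toSubmodule ∧ ψ (cfc (hat M η j) H) ∉ J.toSubmodule ∧
      1 / (4 * K) ≤ (j * η - M) - (i * η - M) := by
  classical
  set R := Finset.range (⌈2 * M / η⌉₊ + 1)
  set S := R.filter fun j => ψ (cfc (hat M η j) H) ∉ J.toSubmodule with hS
  by_contra! hno
  have hspec : ∀ t ∈ spectrum ℝ H, ∑ j ∈ R, hat M η j t = 1 := fun t ht => by
    have : ‖(t : ℝ)‖ ≤ ‖H‖ := by
      simpa [cfc_id ℝ H hH] using norm_apply_le_norm_cfc (id : ℝ → ℝ) H ht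
    rw [Real.norm_eq_abs] at this
    exact sum_hat hη (abs_le.mp (this.trans hM)).1 (abs_le.mp (this.trans hM)).2
  set γ : ℝ := if h : S.Nonempty then (S.min' h : ℕ) * η - M else 0 with hγ
  set e : ℝ → ℝ := fun t => (t - γ) * ∑ j ∈ S, hat M η j t with he
  have hec : Continuous e := by fun_prop
  have hbound : ‖cfc e H‖ ≤ 1 / (4 * K) + η := by
    refine norm_cfc_le (by positivity) fun t ht => ?_
    have hs1 : ∑ j ∈ S, hat M η j t ≤ 1 := (Finset.sum_le_sum_of_subset_of_nonneg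
      (Finset.filter_subset _ _) fun j _ _ => hat_nonneg M η j t).trans (hspec t ht).le
    have hs0 : 0 ≤ ∑ j ∈ S, hat M η j t := Finset.sum_nonneg fun j _ => hat_nonneg M η j t
    rcases eq_or_ne (∑ j ∈ S, hat M η j t) 0 with h0 | h0
    · simp only [he, h0, mul_zero, norm_zero]
      positivity
    obtain ⟨j, hj, hjt⟩ := Finset.exists_ne_zero_of_sum_ne_zero h0
    have hne : S.Nonempty := ⟨j, hj⟩
    have hm := Finset.mem_filter.mp (S.min'_mem hne)
    have hj' := Finset.mem_filter.mp hj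
    have h1 := hno (S.min' hne) j (Finset.mem_range.mp hm.1) (Finset.mem_range.mp hj'.1) hm.2 hj'.2
    have h2 : (S.min' hne : ℝ) ≤ j := by exact_mod_cast S.min'_le j hj
    have h3 := abs_le.mp (abs_le_of_hat_ne_zero hη hjt)
    have h4 : |t - γ| ≤ 1 / (4 * K) + η := by
      rw [hγ, dif_pos hne, abs_le]
      have := mul_le_mul_of_nonneg_right h2 hη.le
      have : 0 < 1 / (4 * K) := by positivity
      constructor <;> linarith
    calc ‖e t‖ = |t - γ| * ∑ j ∈ S, hat M η j t := by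
          simp [he, Real.norm_eq_abs, abs_of_nonneg hs0]
      _ ≤ (1 / (4 * K) + η) * 1 := mul_le_mul h4 hs1 hs0 (by positivity)
      _ = _ := mul_one _
  have hmod : ψ H - algebraMap ℝ E γ - ψ (cfc e H) ∈ J.toSubmodule := by
    have e1 : H - algebraMap ℝ F γ - cfc e H =
        ∑ j ∈ R \ S, cfc (fun t => (t - γ) * hat M η j t) H := by
      rw [← cfc_sum (fun j t => (t - γ) * hat M η j t) H (R \ S) fun j _ => by fun_prop]
      nth_rw 1 [← cfc_id' ℝ H]
      rw [← cfc_const γ H, ← cfc_sub (fun t : ℝ => t) (fun _ => γ) H,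
        ← cfc_sub (fun t : ℝ => t - γ) e H]
      refine cfc_congr fun t ht => ?_
      simp only [he, Finset.sum_apply, ← Finset.mul_sum]
      have := hspec t ht
      rw [← Finset.sum_sdiff (Finset.filter_subset (fun j => ψ (cfc (hat M η j) H) ∉ J.toSubmodule)
        R), ← hS] at this
      linear_combination -(t - γ) * this
    have e2 : ψ H - algebraMap ℝ E γ - ψ (cfc e H) =
        ψ (∑ j ∈ R \ S, cfc (fun t => (t - γ) * hat M η j t) H) := by
      rw [← e1, map_sub, map_sub]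
      congr 2
      rw [IsScalarTower.algebraMap_apply ℝ ℂ E, IsScalarTower.algebraMap_apply ℝ ℂ F]
      exact (AlgHomClass.commutes ψ _).symm
    rw [e2, map_sum]
    refine J.toSubmodule.sum_mem fun j hj => ?_
    have hjm : ψ (cfc (hat M η j) H) ∈ J.toSubmodule := by
      by_contra hc
      exact (Finset.mem_sdiff.mp hj).2 (Finset.mem_filter.mpr ⟨(Finset.mem_sdiff.mp hj).1, hc⟩)
    rw [cfc_mul (fun t => t - γ) (hat M η j) H, map_mul]
    exact J.mul_left _ hjm
  set Z : E := ψ (cfc e H) with hZ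
  set X := ∑ t, ψ (a t) * (Z * ψ (c t) - ψ (c t) * Z) * ψ (d t) with hX
  have hX1 : 1 - X ∈ J.toSubmodule := by
    have hid' := congrArg ψ hid
    simp only [map_sum, map_mul, map_sub, map_one] at hid'
    rw [← hid', hX, ← Finset.sum_sub_distrib]
    refine J.toSubmodule.sum_mem fun t _ => ?_
    have : ψ (a t) * (ψ H * ψ (c t) - ψ (c t) * ψ H) * ψ (d t) -
        ψ (a t) * (Z * ψ (c t) - ψ (c t) * Z) * ψ (d t) =
      ψ (a t) * ((ψ H - algebraMap ℝ E γ - Z) * ψ (c t) -
        ψ (c t) * (ψ H - algebraMap ℝ E γ - Z)) * ψ (d t) := by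
      rw [show (ψ H - algebraMap ℝ E γ - Z) * ψ (c t) - ψ (c t) * (ψ H - algebraMap ℝ E γ - Z) =
        (ψ H * ψ (c t) - ψ (c t) * ψ H) - (Z * ψ (c t) - ψ (c t) * Z) by
          simp only [sub_mul, mul_sub, (Algebra.commutes γ (ψ (c t)))]
          abel]
      simp only [mul_sub, sub_mul]
    rw [this]
    exact J.mul_right _ (J.mul_left _
      (J.toSubmodule.sub_mem (J.mul_right _ hmod) (J.mul_left _ hmod)))
  have hnψ : ∀ x, ‖ψ x‖ ≤ ‖x‖ := NonUnitalStarAlgHom.norm_apply_le ψ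
  have hX2 : ‖X‖ ≤ ∑ t, ‖a t‖ * ‖c t‖ * ‖d t‖ * (2 * (1 / (4 * K) + η)) := by
    refine (norm_sum_le _ _).trans (Finset.sum_le_sum fun t _ => ?_)
    refine (norm_mul₃_le).trans ?_
    have hz : ‖Z‖ ≤ 1 / (4 * K) + η := (hnψ _).trans hbound
    have h5 : ‖Z * ψ (c t) - ψ (c t) * Z‖ ≤ 2 * (1 / (4 * K) + η) * ‖c t‖ :=
      calc ‖Z * ψ (c t) - ψ (c t) * Z‖ ≤ ‖Z‖ * ‖ψ (c t)‖ + ‖ψ (c t)‖ * ‖Z‖ :=
            (norm_sub_le _ _).trans (add_le_add (norm_mul_le _ _) (norm_mul_le _ _))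
        _ ≤ _ := by nlinarith [hnψ (c t), norm_nonneg Z, norm_nonneg (c t)]
    calc ‖ψ (a t)‖ * ‖Z * ψ (c t) - ψ (c t) * Z‖ * ‖ψ (d t)‖
        ≤ ‖a t‖ * (2 * (1 / (4 * K) + η) * ‖c t‖) * ‖d t‖ :=
          mul_le_mul (mul_le_mul (hnψ _) h5 (norm_nonneg _) (norm_nonneg _)) (hnψ _)
            (norm_nonneg _) (by positivity)
      _ = _ := by ring
  rw [← Finset.sum_mul] at hX2
  have hlt : ‖X‖ < 1 := by
    refine hX2.trans_lt (lt_of_le_of_lt (mul_le_mul_of_nonneg_right hK' (by positivity)) ?_)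
    rw [show K * (2 * (1 / (4 * K) + η)) = 1 / 2 + η * (8 * K) / 4 by field_simp; ring]
    linarith
  exact J.one_notMem (J.mem_of_one_sub_mul hlt (by rwa [mul_one]))

/-- Detection: an approximate eigenvector outside the ideal keeps `f T` outside it. -/
theorem cfc_notMem_of_approx (J : MaxIdeal E) {T U Z : E} (hT : IsSelfAdjoint T)
    (hU : U ∉ J.toSubmodule) {x : ℝ} (hTU : (T - algebraMap ℝ E x) * U = Z * U) (hZ : ‖Z‖ ≤ 1)
    {f : ℝ → ℝ} (hf : Continuous f) (hf0 : ∀ t, 0 ≤ f t) (hpos : ∀ t, |t - x| ≤ 2 → 0 < f t) :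
    cfc f T ∉ J.toSubmodule := by
  intro hfJ
  set m : ℝ → ℝ := fun t => (t - x) / max ((t - x) ^ 2) 4 with hm
  set k : ℝ → ℝ := fun t => max 0 (1 - (t - x) ^ 2 / 4) / (f t + max 0 (|t - x| - 2)) with hk
  have hden : ∀ t, 0 < f t + max 0 (|t - x| - 2) := fun t => by
    rcases le_or_gt (|t - x|) 2 with h | h
    · exact add_pos_of_pos_of_nonneg (hpos t h) (le_max_left _ _)
    · exact add_pos_of_nonneg_of_pos (hf0 t) (lt_max_of_lt_right (by linarith))
  have hmc : Continuous m :=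
    Continuous.div (by fun_prop) (by fun_prop) fun t => (lt_max_of_lt_right four_pos).ne'
  have hkc : Continuous k := Continuous.div (by fun_prop) (by fun_prop) fun t => (hden t).ne'
  have hmk : ∀ t, 1 - k t * f t = m t * (t - x) := by
    intro t
    rcases le_or_gt (|t - x|) 2 with h | h
    · have h4 : (t - x) ^ 2 ≤ 4 := by nlinarith [abs_nonneg (t - x), sq_abs (t - x)]
      have := hpos t h
      simp only [hm, hk, max_eq_right h4, max_eq_left (show |t - x| - 2 ≤ 0 by linarith),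
        max_eq_right (show 0 ≤ 1 - (t - x) ^ 2 / 4 by linarith), add_zero]
      field_simp
      ring
    · have h4 : 4 < (t - x) ^ 2 := by nlinarith [sq_abs (t - x)]
      simp only [hm, hk, max_eq_left h4.le,
        max_eq_left (show 1 - (t - x) ^ 2 / 4 ≤ 0 by linarith), zero_div, zero_mul, sub_zero]
      have hne : t - x ≠ 0 := fun h0 => by rw [h0] at h4; norm_num at h4
      field_simp
  have e : (1 - cfc k T * cfc f T) * U = cfc m T * Z * U := by
    rw [mul_assoc, ← hTU, ← mul_assoc]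
    congr 1
    have ha : T - algebraMap ℝ E x = cfc (fun t : ℝ => t - x) T := by
      rw [cfc_sub (fun t : ℝ => t) (fun _ => x) T continuous_id'.continuousOn
        continuous_const.continuousOn, cfc_id' ℝ T hT, cfc_const x T hT]
    have hb : cfc k T * cfc f T = cfc (fun t => k t * f t) T :=
      (cfc_mul k f T hkc.continuousOn hf.continuousOn).symm
    have hc : (1 : E) - cfc (fun t => k t * f t) T = cfc (fun t => 1 - k t * f t) T := by
      rw [cfc_sub (fun _ : ℝ => (1 : ℝ)) (fun t => k t * f t) T continuous_const.continuousOn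
        (hkc.mul hf).continuousOn, cfc_const_one ℝ T hT]
    have hd : cfc m T * cfc (fun t : ℝ => t - x) T = cfc (fun t => m t * (t - x)) T :=
      (cfc_mul m (fun t : ℝ => t - x) T hmc.continuousOn
        (continuous_id'.sub continuous_const).continuousOn).symm
    rw [ha, hb, hc, hd]
    exact cfc_congr fun t _ => hmk t
  have hn : ‖cfc m T * Z‖ < 1 := by
    refine (norm_mul_le _ _).trans_lt (lt_of_le_of_lt
      (mul_le_mul (norm_cfc_le (c := 1 / 2) (by norm_num) fun t _ => ?_) hZ (norm_nonneg _)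
        (by norm_num)) (by norm_num))
    have hp : (0 : ℝ) < max ((t - x) ^ 2) 4 := lt_of_lt_of_le (by norm_num) (le_max_right _ _)
    simp only [hm, Real.norm_eq_abs, abs_div, abs_of_pos hp]
    rw [div_le_iff₀ hp]
    nlinarith [le_max_left ((t - x) ^ 2) (4 : ℝ), le_max_right ((t - x) ^ 2) (4 : ℝ),
      two_mul_le_add_sq |t - x| 2, sq_abs (t - x)]
  refine hU (J.mem_of_one_sub_mul hn ?_)
  rw [sub_mul, one_mul, ← e, sub_mul, one_mul, sub_sub_cancel]
  exact J.mul_right _ (J.mul_left _ hfJ)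

end Vale.Agent.P101
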