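import Vale.Agent.P101.StageA
import Vale.Agent.P101.Spectral

/-! P101: Stage B, orthogonal full positive elements from spectral windows. -/

namespace Vale.Agent.P101

open scoped CStarAlgebra

/-- The `j`th of `p` periodic windows of width `w`. -/
noncomputable def window (p : ℕ) (w : ℝ) (j : ℕ) (t : ℝ) : ℝ :=
  max 0 (Real.cos (2 * Real.pi * (t - j * w) / (p * w)) - Real.cos (Real.pi / p))

@[fun_prop]
theorem continuous_window (p : ℕ) (w : ℝ) (j : ℕ) : Continuous (window p w j) := by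
  unfold window
  fun_prop

theorem window_pos {p : ℕ} (hp : 0 < p) {w : ℝ} (hw : 0 < w) (j : ℕ) (k : ℤ) {t : ℝ}
    (h : |t - (j * w + k * (p * w))| < w / 2) : 0 < window p w j t := by
  have hp' : (1 : ℝ) ≤ p := by exact_mod_cast hp
  have e : 2 * Real.pi * (t - j * w) / (p * w) =
      2 * Real.pi * (t - (j * w + k * (p * w))) / (p * w) + k * (2 * Real.pi) := by
    field_simp
    ring
  rw [window, lt_max_iff]
  refine Or.inr (sub_pos.mpr ?_)
  rw [e, Real.cos_add_int_mul_two_pi, ← Real.cos_abs (2 * Real.pi * _ / _)]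
  refine Real.cos_lt_cos_of_nonneg_of_le_pi (abs_nonneg _) (div_le_self Real.pi_pos.le hp') ?_
  rw [abs_div, abs_mul, abs_of_pos (show (0 : ℝ) < 2 * Real.pi by positivity),
    abs_of_pos (show (0 : ℝ) < p * w by positivity), div_lt_div_iff₀ (by positivity) (by linarith)]
  nlinarith [Real.pi_pos, mul_lt_mul_of_pos_left h (mul_pos Real.pi_pos (show (0 : ℝ) < p by linarith))]

theorem exists_int_of_window_ne_zero {p : ℕ} (hp : 0 < p) {w : ℝ} {j : ℕ} {t : ℝ}
    (h : window p w j t ≠ 0) :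
    ∃ k : ℤ, |2 * Real.pi * (t - j * w) / (p * w) - k * (2 * Real.pi)| < Real.pi / p := by
  set θ := 2 * Real.pi * (t - j * w) / (p * w) with hθ
  have hcos : Real.cos (Real.pi / p) < Real.cos θ := by
    by_contra! hc
    exact h (by rw [window, ← hθ, max_eq_left (by linarith)])
  refine ⟨round (θ / (2 * Real.pi)), ?_⟩
  set k := round (θ / (2 * Real.pi))
  have h2 := abs_sub_round (θ / (2 * Real.pi))
  have hb : |θ - k * (2 * Real.pi)| ≤ Real.pi := by
    have e : θ - k * (2 * Real.pi) = (θ / (2 * Real.pi) - k) * (2 * Real.pi) := by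
      field_simp
    rw [e, abs_mul, abs_of_pos (show (0 : ℝ) < 2 * Real.pi by positivity)]
    nlinarith [Real.pi_pos]
  by_contra! hc
  have := Real.cos_le_cos_of_nonneg_of_le_pi (show 0 ≤ Real.pi / p by positivity) hb hc
  rw [Real.cos_abs, Real.cos_sub_int_mul_two_pi] at this
  linarith

theorem window_mul {p : ℕ} {w : ℝ} (hw : 0 < w) {i j : ℕ} (hi : i < p) (hj : j < p) (hij : i ≠ j)
    (t : ℝ) : window p w i t * window p w j t = 0 := by
  by_contra hne
  obtain ⟨h1, h2⟩ := mul_ne_zero_iff.mp hne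
  have hp : 0 < p := by omega
  have hp' : (0 : ℝ) < p := by exact_mod_cast hp
  obtain ⟨k, hk⟩ := exists_int_of_window_ne_zero hp h1
  obtain ⟨l, hl⟩ := exists_int_of_window_ne_zero hp h2
  have e : 2 * Real.pi * (t - i * w) / (p * w) - k * (2 * Real.pi) -
      (2 * Real.pi * (t - j * w) / (p * w) - l * (2 * Real.pi)) =
      ((j : ℤ) - i - (k - l) * p : ℤ) * (2 * Real.pi / p) := by
    push_cast
    field_simp
    ring
  have h3 : |(((j : ℤ) - i - (k - l) * p : ℤ) : ℝ)| * (2 * Real.pi / p) < 2 * Real.pi / p := by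
    rw [← abs_of_pos (show (0 : ℝ) < 2 * Real.pi / p by positivity), ← abs_mul, ← e,
      abs_of_pos (show (0 : ℝ) < 2 * Real.pi / p by positivity)]
    refine (abs_sub _ _).trans_lt ?_
    calc _ < Real.pi / p + Real.pi / p := add_lt_add hk hl
      _ = _ := by ring
  have h4 : |((j : ℤ) - i - (k - l) * p)| < 1 := by
    have : |(((j : ℤ) - i - (k - l) * p : ℤ) : ℝ)| < 1 := by
      have hq : (0 : ℝ) < 2 * Real.pi / p := by positivity
      nlinarith
    exact_mod_cast this
  have h5 := Int.abs_lt_one_iff.mp h4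
  rcases lt_trichotomy (k - l) 0 with hkl | hkl | hkl
  · nlinarith
  · rw [hkl] at h5
    omega
  · nlinarith

section

variable {E F : Type*} [CStarAlgebra E] [CStarAlgebra F]

/-- Joint approximate eigenvectors for commuting copies. -/
theorem exists_joint (J : MaxIdeal E) {P : ℕ} (ψ : Fin P → (F →⋆ₐ[ℂ] E))
    (hcomm : ∀ i j, i ≠ j → ∀ x y, Commute (ψ i x) (ψ j y))
    (hgen : cstarGen (⋃ i, Set.range (ψ i)) = ⊤) {H : F} (hH : IsSelfAdjoint H)
    {M η : ℝ} (hη : 0 < η) (k : Fin P → ℕ)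
    (hk : ∀ b, ψ b (cfc (hat M η (k b)) H) ∉ J.toSubmodule) :
    ∃ U Z : E, U ∉ J.toSubmodule ∧ ‖Z‖ ≤ P * η ∧
      (∑ b, ψ b H - algebraMap ℝ E (∑ b, ((k b : ℝ) * η - M))) * U = Z * U := by
  classical
  have key : ∀ s : Finset (Fin P), ∃ U, U ∉ J.toSubmodule ∧
      (∀ b ∉ s, ∀ x, Commute U (ψ b x)) ∧
      ∀ b ∈ s, ∃ z : F, ‖z‖ ≤ η ∧
        (ψ b H - algebraMap ℝ E ((k b : ℝ) * η - M)) * U = ψ b z * U := by
    intro s
    induction s using Finset.induction with
    | empty => exact ⟨1, J.one_notMem, fun b _ x => Commute.one_left _, by simp⟩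
    | insert a s has ih =>
      obtain ⟨U, hU, hUc, hUe⟩ := ih
      set g := ψ a (cfc (hat M η (k a)) H) with hg
      have hsplit : Splits (Set.range (ψ a))
          (⋃ j ∈ ({a}ᶜ : Set (Fin P)), Set.range (ψ j)) := by
        refine ⟨?_, ?_, ?_, ?_⟩
        · rintro _ ⟨z, rfl⟩; exact ⟨star z, map_star _ z⟩
        · intro z hz
          obtain ⟨j, hj, w, rfl⟩ := Set.mem_iUnion₂.1 hz
          exact Set.mem_iUnion₂.2 ⟨j, hj, star w, map_star _ w⟩
        · rintro _ ⟨z, rfl⟩ _ hw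
          obtain ⟨j, hj, w, rfl⟩ := Set.mem_iUnion₂.1 hw
          exact hcomm a j (fun e => hj e.symm) _ _
        · rw [← hgen]
          congr 1
          ext z
          simp only [Set.mem_union, Set.mem_iUnion, Set.mem_compl_iff, Set.mem_singleton_iff]
          constructor
          · rintro (h | ⟨j, -, h⟩)
            exacts [⟨a, h⟩, ⟨j, h⟩]
          · rintro ⟨j, h⟩
            by_cases e : j = a
            exacts [Or.inl (e ▸ h), Or.inr ⟨j, e, h⟩]
      refine ⟨g * U, J.mul_notMem hsplit (fun y hy => ?_) (fun x hx => ?_) (hk a) hU,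
        fun b hb x => ?_, fun b hb => ?_⟩
      · obtain ⟨j, hj, w, rfl⟩ := Set.mem_iUnion₂.1 hy
        exact hcomm a j (fun e => hj e.symm) _ _
      · obtain ⟨w, rfl⟩ := hx
        exact hUc a has w
      · rw [Finset.mem_insert, not_or] at hb
        exact (hcomm a b (Ne.symm hb.1) _ _).mul_left (hUc b hb.2 x)
      · rcases Finset.mem_insert.mp hb with rfl | hbs
        · set γ : ℝ := (k b : ℝ) * η - M
          refine ⟨cfc (fun t => max (-η) (min η (t - γ))) H, norm_cfc_le hη.le fun t _ => ?_, ?_⟩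
          · rw [Real.norm_eq_abs, abs_le]
            exact ⟨le_max_left _ _, max_le (by linarith) (min_le_left _ _)⟩
          · have e1 : H * cfc (hat M η (k b)) H - γ • cfc (hat M η (k b)) H =
                cfc (fun t => max (-η) (min η (t - γ))) H * cfc (hat M η (k b)) H := by
              nth_rw 1 [← cfc_id' ℝ H]
              rw [← cfc_mul (fun t : ℝ => t) (hat M η (k b)) H,
                ← cfc_const_mul γ (hat M η (k b)) H,
                ← cfc_sub (fun t : ℝ => t * hat M η (k b) t) (fun t => γ * hat M η (k b) t) H,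
                ← cfc_mul (fun t => max (-η) (min η (t - γ))) (hat M η (k b)) H]
              refine cfc_congr fun t _ => ?_
              rcases eq_or_ne (hat M η (k b) t) 0 with h0 | h0
              · simp [h0]
              · obtain ⟨h1, h2⟩ := abs_le.mp (abs_le_of_hat_ne_zero hη h0)
                rw [min_eq_right h2, max_eq_right h1]
                ring
            rw [← mul_assoc, ← mul_assoc]
            congr 1
            rw [hg, ← map_mul, ← e1, sub_mul, map_sub (ψ b), map_mul,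
              ← Algebra.smul_def γ, ← Complex.coe_smul γ, ← Complex.coe_smul γ, map_smul]
        · obtain ⟨z, hz, hzU⟩ := hUe b hbs
          have hne : a ≠ b := fun e => has (e ▸ hbs)
          refine ⟨z, hz, ?_⟩
          have c1 : Commute g (ψ b H - algebraMap ℝ E ((k b : ℝ) * η - M)) :=
            (hcomm a b hne _ _).sub_right (Algebra.commute_algebraMap_right _ _)
          rw [← mul_assoc, ← c1.eq, mul_assoc, hzU, ← mul_assoc, (hcomm a b hne _ z).eq, mul_assoc]
  obtain ⟨U, hU, -, hUe⟩ := key Finset.univ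
  choose z hz hzU using fun b => hUe b (Finset.mem_univ b)
  refine ⟨U, ∑ b, ψ b (z b), hU, ?_, ?_⟩
  · refine (norm_sum_le _ _).trans ((Finset.sum_le_sum fun b _ =>
      (NonUnitalStarAlgHom.norm_apply_le (ψ b) (z b)).trans (hz b)).trans ?_)
    simp
  · rw [map_sum, ← Finset.sum_sub_distrib, Finset.sum_mul, Finset.sum_mul]
    exact Finset.sum_congr rfl fun b _ => hzU b

/-- A discrete intermediate value theorem. -/
theorem exists_near {x : ℕ → ℝ} {s c : ℝ} :
    ∀ P : ℕ, x 0 ≤ c → c ≤ x P → (∀ i < P, x (i + 1) - x i ≤ s) → 0 ≤ s →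
      ∃ i ≤ P, |x i - c| ≤ s
  | 0, h0, h1, _, hs => ⟨0, le_rfl, by rw [le_antisymm h0 h1]; simpa using hs⟩
  | P + 1, h0, h1, hstep, hs => by
    rcases le_or_gt c (x P) with h | h
    · obtain ⟨i, hi, hi'⟩ := exists_near P h0 h (fun i hi => hstep i (Nat.lt_succ_of_lt hi)) hs
      exact ⟨i, hi.trans (Nat.le_succ P), hi'⟩
    · refine ⟨P + 1, le_rfl, ?_⟩
      rw [abs_of_nonneg (by linarith)]
      have := hstep P (Nat.lt_succ_self P)
      linarith

theorem window_notMem (J : MaxIdeal E) {P : ℕ} (ψ : Fin P → (F →⋆ₐ[ℂ] E))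
    (hcomm : ∀ i j, i ≠ j → ∀ x y, Commute (ψ i x) (ψ j y))
    (hgen : cstarGen (⋃ i, Set.range (ψ i)) = ⊤) {H : F} (hH : IsSelfAdjoint H)
    {n : ℕ} (a c d : Fin n → F) (hid : ∑ t, a t * (H * c t - c t * H) * d t = 1)
    {M K η w : ℝ} {p : ℕ} (hp : 0 < p) (hM : ‖H‖ ≤ M) (hK : 0 < K)
    (hK' : ∑ t, ‖a t‖ * ‖c t‖ * ‖d t‖ ≤ K) (hη : 0 < η) (hηK : η * (8 * K) ≤ 1)
    (hPη : P * η ≤ 1) (hη1 : η ≤ 1) (hw : w = 4 * M + 10) (hP : w * (p + 2) ≤ P / (4 * K))
    (j : ℕ) : cfc (window p w j) (∑ b, ψ b H) ∉ J.toSubmodule := by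
  classical
  choose lo hi hlo hhi hlo' hhi' hgap using fun b =>
    exists_two_points J (ψ b) hH a c d hid hM hK hK' hη hηK
  set kk : ℕ → Fin P → ℕ := fun i b => if (b : ℕ) < i then hi b else lo b with hkk
  set X : ℕ → ℝ := fun i => ∑ b, ((kk i b : ℝ) * η - M) with hX
  have hM0 : 0 ≤ M := (norm_nonneg H).trans hM
  have hw0 : 0 < w := by linarith
  have hgrid : ∀ q, q < ⌈2 * M / η⌉₊ + 1 → (q : ℝ) * η ≤ 2 * M + η := fun q hq => by
    have h1 : (q : ℝ) ≤ ⌈2 * M / η⌉₊ := by exact_mod_cast Nat.lt_succ_iff.mp hq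
    have h2 := Nat.ceil_lt_add_one (show 0 ≤ 2 * M / η by positivity)
    have h3 : (q : ℝ) ≤ 2 * M / η + 1 := by linarith
    calc (q : ℝ) * η ≤ (2 * M / η + 1) * η := mul_le_mul_of_nonneg_right h3 hη.le
      _ = _ := by field_simp
  have hstep : ∀ i < P, X (i + 1) - X i ≤ 2 * M + 1 := by
    intro i hi'
    simp only [hX, ← Finset.sum_sub_distrib]
    rw [Finset.sum_eq_single ⟨i, hi'⟩ (fun b _ hb => ?_) (by simp)]
    · simp only [hkk, lt_irrefl, Nat.lt_succ_self, if_true, if_false]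
      have := hgrid _ (hhi ⟨i, hi'⟩)
      have : (0 : ℝ) ≤ (lo ⟨i, hi'⟩ : ℝ) * η := by positivity
      linarith
    · have : (b : ℕ) ≠ i := fun e => hb (Fin.ext e)
      simp only [hkk, show ((b : ℕ) < i + 1) ↔ ((b : ℕ) < i) from by omega, sub_self]
  have htot : w * (p + 2) ≤ X P - X 0 := by
    refine hP.trans ?_
    simp only [hX, ← Finset.sum_sub_distrib]
    calc (P : ℝ) / (4 * K) = ∑ _b : Fin P, 1 / (4 * K) := by simp [div_eq_mul_inv]
      _ ≤ _ := Finset.sum_le_sum fun b _ => by simpa [hkk] using hgap b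
  obtain ⟨k, hk1, hk2⟩ : ∃ k : ℤ, X 0 + w ≤ j * w + k * (p * w) ∧
      j * w + k * (p * w) ≤ X 0 + w + p * w := by
    have hpw : (0 : ℝ) < p * w := by positivity
    refine ⟨⌈(X 0 + w - j * w) / (p * w)⌉, ?_, ?_⟩
    · have := Int.le_ceil ((X 0 + w - j * w) / (p * w))
      rw [div_le_iff₀ hpw] at this
      linarith
    · have := Int.ceil_lt_add_one ((X 0 + w - j * w) / (p * w))
      rw [← sub_lt_iff_lt_add, lt_div_iff₀ hpw] at this
      linarith
  have hle : j * w + k * (p * w) ≤ X P := by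
    have : 0 ≤ w := hw0.le
    linarith
  obtain ⟨i, -, hi'⟩ := exists_near (x := X) (c := j * w + k * (p * w)) P (by linarith) hle hstep
    (by linarith)
  obtain ⟨U, Z, hU, hZ, hTU⟩ := exists_joint J ψ hcomm hgen hH hη (kk i)
    (fun b => by simp only [hkk]; split_ifs; exacts [hhi' b, hlo' b])
  refine cfc_notMem_of_approx J (isSelfAdjoint_sum _ fun b _ => hH.map (ψ b)) hU hTU
    (hZ.trans hPη) (continuous_window p w j) (fun t => le_max_left _ _) fun t ht => ?_
  refine window_pos hp hw0 j k ((abs_sub_le t (X i) _).trans_lt ?_)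
  have : |t - X i| ≤ 2 := ht
  linarith

end

variable {B : Type*} [CStarAlgebra B]

theorem exists_orthogonal_full (hB : HasCopies B) {H : B} (hH : IsSelfAdjoint H)
    {n : ℕ} (a c d : Fin n → B) (h : ∑ t, a t * (H * c t - c t * H) * d t = 1) (p : ℕ) :
    ∃ f : Fin p → B, (∀ i, IsSelfAdjoint (f i)) ∧ (∀ i j, i ≠ j → f i * f j = 0) ∧
      ∀ i, ∃ (k : ℕ) (u v : Fin k → B), ∑ r, u r * f i * v r = 1 := by
  classical
  set F : Finset B := insert H (Finset.univ.image a ∪ (Finset.univ.image c ∪ Finset.univ.image d))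
    with hF
  set H₀ : cstarGen (F : Set B) := ⟨H, mem_cstarGen_of_mem (by simp [hF])⟩
  set a₀ : Fin n → cstarGen (F : Set B) := fun t => ⟨a t, mem_cstarGen_of_mem (by simp [hF])⟩
  set c₀ : Fin n → cstarGen (F : Set B) := fun t => ⟨c t, mem_cstarGen_of_mem (by simp [hF])⟩
  set d₀ : Fin n → cstarGen (F : Set B) := fun t => ⟨d t, mem_cstarGen_of_mem (by simp [hF])⟩
  have hid : ∑ t, a₀ t * (H₀ * c₀ t - c₀ t * H₀) * d₀ t = 1 :=
    Subtype.ext (by simpa [a₀, c₀, d₀, H₀] using h)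
  set M : ℝ := ‖H₀‖
  set K : ℝ := ∑ t, ‖a₀ t‖ * ‖c₀ t‖ * ‖d₀ t‖ + 1
  have hK : 0 < K := by positivity
  set w : ℝ := 4 * M + 10 with hw
  have hw0 : 0 < w := by positivity
  set P : ℕ := ⌈4 * K * (w * (p + 2))⌉₊
  set η : ℝ := 1 / (8 * K + P + 1)
  have hη : 0 < η := by positivity
  have hηle : η * (8 * K + P + 1) = 1 := div_mul_cancel₀ _ (by positivity)
  have hP0 : (0 : ℝ) ≤ P := Nat.cast_nonneg P
  have hηK : η * (8 * K) ≤ 1 := by nlinarith
  have hPη : (P : ℝ) * η ≤ 1 := by nlinarith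
  have hη1 : η ≤ 1 := by nlinarith
  have hP : w * (p + 2) ≤ (P : ℝ) / (4 * K) := by
    rw [le_div_iff₀ (by positivity)]
    calc w * (p + 2) * (4 * K) = 4 * K * (w * (p + 2)) := by ring
      _ ≤ _ := Nat.le_ceil _
  obtain ⟨φ, hφ, -⟩ := hB.exists_copies F ∅ P
  set G : Set B := ⋃ i, Set.range (φ i)
  have hmem : ∀ i z, φ i z ∈ cstarGen G := fun i z =>
    mem_cstarGen_of_mem (Set.mem_iUnion.2 ⟨i, z, rfl⟩)
  set ψ : Fin P → (cstarGen (F : Set B) →⋆ₐ[ℂ] cstarGen G) :=
    fun i => (φ i).codRestrict (cstarGen G) (hmem i)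
  have hgen : cstarGen (⋃ i, Set.range (ψ i)) = ⊤ := by
    refine eq_top_iff.2 fun z _ => ?_
    exact cstarGen_induction (T := cstarGen (⋃ i, Set.range (ψ i)))
      (StarSubalgebra.isClosed_topologicalClosure _)
      (fun b hb => by
        obtain ⟨i, w, rfl⟩ := Set.mem_iUnion.1 hb
        exact mem_cstarGen_of_mem (Set.mem_iUnion.2 ⟨i, w, rfl⟩)) z
  set T : cstarGen G := ∑ b, ψ b H₀
  have hT : IsSelfAdjoint T := isSelfAdjoint_sum _ fun b _ =>
    IsSelfAdjoint.map (x := H₀) (Subtype.ext hH.star_eq) (ψ b)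
  refine ⟨fun i => ((cfc (window p w i) T : cstarGen G) : B), fun i => ?_, fun i j hij => ?_,
    fun i => ?_⟩
  · exact IsSelfAdjoint.map (cfc_predicate (window p w i) T) (cstarGen G).subtype
  · show ((cfc (window p w i) T : cstarGen G) : B) * ((cfc (window p w j) T : cstarGen G) : B) = 0
    rw [← MulMemClass.coe_mul, ← cfc_mul (window p w i) (window p w j) T,
      cfc_congr (g := fun _ => (0 : ℝ)) fun t _ => window_mul hw0 i.isLt j.isLt
        (fun e => hij (Fin.ext e)) t, cfc_const_zero]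
    rfl
  · rcases exists_identity_or_maxIdeal ({cfc (window p w i) T} : Set (cstarGen G)) with
      ⟨N, u, v, x, hx, hsum⟩ | ⟨J, hJ⟩
    · refine ⟨N, fun r => (u r : B), fun r => (v r : B), ?_⟩
      have := congrArg Subtype.val hsum
      simp only [AddSubmonoidClass.coe_finsetSum, MulMemClass.coe_mul, OneMemClass.coe_one] at this
      rw [← this]
      exact Finset.sum_congr rfl fun r _ => by rw [Set.mem_singleton_iff.1 (hx r)]
    · exact absurd (hJ rfl) (window_notMem J ψ (fun i j hij x y => Subtype.ext (hφ i j hij x y))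
        hgen (show IsSelfAdjoint H₀ from Subtype.ext hH.star_eq) a₀ c₀ d₀ hid (Nat.pos_of_ne_zero fun e => absurd i.isLt (by omega))
        le_rfl hK (le_add_of_nonneg_right zero_le_one) hη hηK hPη hη1 hw hP i)

end Vale.Agent.P101
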