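import Vale.Agent.P101.Copies
import Vale.Agent.P101.Windows

/-! P101: a full square-zero element and its normalisation. -/

namespace Vale.Agent.P101

open scoped CStarAlgebra

variable {B : Type*} [CStarAlgebra B]

/-- In a closed ideal, a squared self-adjoint factor may be replaced by the factor. -/
lemma MaxIdeal.mul_mem_of_mul_sq_mem (J : MaxIdeal B) {w g : B} (hg : IsSelfAdjoint g)
    (h : w * g * g ∈ J.toSubmodule) : w * g ∈ J.toSubmodule := by
  rw [← SetLike.mem_coe, ← J.closed.closure_eq, Metric.mem_closure_iff]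
  intro ε hε
  set s : ℝ := ε / (‖w‖ + 1)
  have hs : 0 < s := by positivity
  have hne : ∀ t : ℝ, t ^ 2 + s ^ 2 ≠ 0 := fun t => by positivity
  set k : ℝ → ℝ := fun t => t / (t ^ 2 + s ^ 2)
  have hk : Continuous k := continuous_id.div (by fun_prop) hne
  have hb : ∀ x ∈ spectrum ℝ g, ‖x - x * (x * k x)‖ ≤ s := by
    intro x _
    have e : x - x * (x * k x) = s ^ 2 * x / (x ^ 2 + s ^ 2) := by
      simp only [k]; field_simp [hne x]; ring
    rw [e, Real.norm_eq_abs, abs_div, abs_of_pos (show 0 < x ^ 2 + s ^ 2 by positivity),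
      div_le_iff₀ (by positivity), abs_mul, abs_of_pos (show 0 < s ^ 2 by positivity)]
    nlinarith [two_mul_le_add_sq |x| s, sq_abs x, abs_nonneg x, hs]
  have hn : ‖g - g * (g * cfc k g)‖ ≤ s := by
    have e2 : cfc (fun x : ℝ => x - x * (x * k x)) g = g - g * (g * cfc k g) := by
      rw [cfc_sub .., cfc_mul .., cfc_mul .., cfc_id' ℝ g]
    rw [← e2]
    exact norm_cfc_le hs.le hb
  refine ⟨w * g * g * cfc k g, J.mul_right _ h, ?_⟩
  rw [dist_eq_norm, show w * g - w * g * g * cfc k g = w * (g - g * (g * cfc k g)) by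
    simp only [mul_sub, mul_assoc]]
  calc ‖w * (g - g * (g * cfc k g))‖ ≤ ‖w‖ * s :=
        (norm_mul_le _ _).trans (mul_le_mul_of_nonneg_left hn (norm_nonneg _))
    _ < (‖w‖ + 1) * s := by nlinarith
    _ = ε := by simp only [s]; field_simp

theorem exists_full_sq_zero (hB : HasCopies B)
    (hf : ∀ p : ℕ, ∃ f : Fin p → B, (∀ i, IsSelfAdjoint (f i)) ∧
      (∀ i j, i ≠ j → f i * f j = 0) ∧
      ∀ i, ∃ (k : ℕ) (u v : Fin k → B), ∑ r, u r * f i * v r = 1) :
    ∃ y : B, y * y = 0 ∧ ∃ (k : ℕ) (u v : Fin k → B), ∑ r, u r * y * v r = 1 := by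
  classical
  obtain ⟨f, -, hf0, hfid⟩ := hf 2
  obtain ⟨k, a, a', ha⟩ := hfid 0
  obtain ⟨k', b, b', hb⟩ := hfid 1
  set Z : Fin k × Fin k' → B := fun t => f 0 * (a' t.1 * b t.2) * f 1 with hZ
  have hZ0 : ∀ t t', Z t * Z t' = 0 := fun t t' => by
    simp only [hZ, mul_assoc]
    rw [← mul_assoc (f 1) (f 0), hf0 1 0 (by decide)]
    simp
  have hZ1 : ∑ t, a t.1 * Z t * b' t.2 = 1 := by
    have := congrArg₂ (· * ·) ha hb
    simp only [Finset.sum_mul_sum, one_mul] at this
    rw [← this, Fintype.sum_prod_type]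
    exact Finset.sum_congr rfl fun r _ => Finset.sum_congr rfl fun s _ => by
      simp only [hZ, mul_assoc]
  obtain ⟨g, hgsa, hg0, hgid⟩ := hf (Fintype.card (Fin k × Fin k'))
  choose n P Q hPQ using hgid
  set e := Fintype.equivFin (Fin k × Fin k')
  set F : Finset B := Finset.univ.image g ∪
    ((Finset.univ.sigma fun t => (Finset.univ : Finset (Fin (n t)))).image fun x => P x.1 x.2) ∪
      ((Finset.univ.sigma fun t => (Finset.univ : Finset (Fin (n t)))).image fun x => Q x.1 x.2)
    with hF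
  have hgF : ∀ t, g t ∈ cstarGen (F : Set B) := fun t => mem_cstarGen_of_mem (by simp [hF])
  have hPF : ∀ t r, P t r ∈ cstarGen (F : Set B) := fun t r =>
    mem_cstarGen_of_mem (Finset.mem_coe.2 (Finset.mem_union_left _ (Finset.mem_union_right _
      (Finset.mem_image.2 ⟨⟨t, r⟩, by simp, rfl⟩))))
  have hQF : ∀ t r, Q t r ∈ cstarGen (F : Set B) := fun t r =>
    mem_cstarGen_of_mem (Finset.mem_coe.2 (Finset.mem_union_right _
      (Finset.mem_image.2 ⟨⟨t, r⟩, by simp, rfl⟩)))
  obtain ⟨φ, hφ⟩ := hB F (Finset.univ.image Z)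
  have hc : ∀ x t, Commute (φ x) (Z t) := fun x t => hφ x _ (by simp)
  set G : Fin k × Fin k' → B := fun t => φ ⟨g (e t), hgF _⟩ with hG
  set y := ∑ t, Z t * G t with hy
  refine ⟨y, ?_, ?_⟩
  · rw [hy, Finset.sum_mul_sum]
    refine Finset.sum_eq_zero fun t _ => Finset.sum_eq_zero fun t' _ => ?_
    rw [mul_assoc (Z t), ← mul_assoc (G t), hG, (hc _ t').eq, mul_assoc (Z t'),
      ← mul_assoc (Z t), hZ0, zero_mul]
  · rcases exists_identity_or_maxIdeal ({y} : Set B) with ⟨N, u, v, x, hx, hsum⟩ | ⟨J, hJ⟩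
    · refine ⟨N, u, v, ?_⟩
      rw [← hsum]
      exact Finset.sum_congr rfl fun r _ => by rw [Set.mem_singleton_iff.1 (hx r)]
    · exfalso
      apply J.one_notMem
      rw [← hZ1]
      refine J.toSubmodule.sum_mem fun s _ => J.mul_right _ (J.mul_left _ ?_)
      have hGsa : IsSelfAdjoint (G s) := (IsSelfAdjoint.map (x := (⟨g (e s), hgF _⟩ :
        cstarGen (F : Set B))) (Subtype.ext (hgsa _)) φ)
      have hyG : y * G s = Z s * G s * G s := by
        rw [hy, Finset.sum_mul, Finset.sum_eq_single s]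
        · intro t _ hts
          rw [mul_assoc, hG, ← map_mul]
          have : (⟨g (e t), hgF _⟩ : cstarGen (F : Set B)) * ⟨g (e s), hgF _⟩ = 0 :=
            Subtype.ext (hg0 _ _ (e.injective.ne hts))
          rw [this, map_zero, mul_zero]
        · simp
      have h1 : Z s * G s ∈ J.toSubmodule := J.mul_mem_of_mul_sq_mem hGsa
        (hyG ▸ J.mul_right _ (hJ rfl))
      have hid : ∑ r, φ ⟨P (e s) r, hPF _ r⟩ * G s * φ ⟨Q (e s) r, hQF _ r⟩ = 1 := by
        have : ∑ r, (⟨P (e s) r, hPF _ r⟩ : cstarGen (F : Set B)) * ⟨g (e s), hgF _⟩ *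
            ⟨Q (e s) r, hQF _ r⟩ = 1 := Subtype.ext (by simpa using hPQ (e s))
        have h2 := congrArg φ this
        rw [map_sum, map_one] at h2
        simp only [map_mul] at h2
        exact h2
      rw [← mul_one (Z s), ← hid, Finset.mul_sum]
      refine J.toSubmodule.sum_mem fun r _ => ?_
      rw [← mul_assoc, ← mul_assoc, ← (hc _ s).eq, mul_assoc (φ _)]
      exact J.mul_right _ (J.mul_left _ h1)

lemma star_sum_mul_sum_le [PartialOrder B] [StarOrderedRing B] {ι : Type*} (s : Finset ι)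
    (x : ι → B) :
    (2 : ℝ) • (star (∑ r ∈ s, x r) * ∑ r ∈ s, x r) ≤
      (2 * s.card : ℝ) • ∑ r ∈ s, star (x r) * x r := by
  have h := Finset.sum_nonneg fun r (_ : r ∈ s) => Finset.sum_nonneg fun t (_ : t ∈ s) =>
    star_mul_self_nonneg (x r - x t)
  simp only [star_sub, sub_mul, mul_sub, Finset.sum_sub_distrib, Finset.sum_const, ← Finset.mul_sum,
    ← Finset.sum_mul, ← star_sum, ← Finset.smul_sum] at h
  rw [← sub_nonneg]
  refine h.trans (le_of_eq ?_)
  simp only [← Nat.cast_smul_eq_nsmul ℝ]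
  module

lemma isUnit_sum_conj [PartialOrder B] [StarOrderedRing B] {y : B} {k : ℕ} (u v : Fin k → B)
    (h : ∑ r, u r * y * v r = 1) : IsUnit (∑ r, star (v r) * (star y * y) * v r) := by
  set Y := star y * y with hY
  set S := ∑ r, star (v r) * Y * v r
  set M : ℝ := ∑ r, ‖star (u r) * u r‖ + 1
  have hM : 0 < M := by positivity
  have h1 : ∀ r, star (u r * y * v r) * (u r * y * v r) ≤ M • (star (v r) * Y * v r) := by
    intro r
    have e : star (u r * y * v r) * (u r * y * v r) =
        star (y * v r) * (star (u r) * u r) * (y * v r) := by simp only [star_mul, mul_assoc]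
    rw [e, show star (v r) * Y * v r = star (y * v r) * (y * v r) by
      simp only [hY, star_mul, mul_assoc]]
    refine (CStarAlgebra.star_left_conjugate_le_norm_smul).trans ?_
    refine smul_le_smul_of_nonneg_right ?_ (star_mul_self_nonneg _)
    exact (Finset.single_le_sum (fun i _ => norm_nonneg (star (u i) * u i))
      (Finset.mem_univ r)).trans (le_add_of_nonneg_right zero_le_one)
  have h2 : (2 : ℝ) • (1 : B) ≤ (2 * k * M : ℝ) • S := by
    have h3 := star_sum_mul_sum_le Finset.univ (fun r => u r * y * v r)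
    rw [h, star_one, one_mul, Finset.card_univ, Fintype.card_fin] at h3
    refine h3.trans ?_
    rw [mul_smul (2 * k : ℝ) M, Finset.smul_sum (r := M)]
    exact smul_le_smul_of_nonneg_left (Finset.sum_le_sum fun r _ => h1 r) (by positivity)
  rcases Nat.eq_zero_or_pos k with rfl | hk
  · have : (1 : B) = 0 := by simpa using h.symm
    have := subsingleton_of_zero_eq_one this.symm
    exact isUnit_of_subsingleton S
  have h4 : IsUnit ((2 * k * M : ℝ) • S) := by
    refine CStarAlgebra.isUnit_of_le _ h2 ?_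
    rw [← Algebra.algebraMap_eq_smul_one]
    exact IsUnit.isStrictlyPositive ((IsUnit.mk0 _ two_ne_zero).map _)
      (by rw [Algebra.algebraMap_eq_smul_one]; exact smul_nonneg zero_le_two zero_le_one)
  have hne : (2 * k * M : ℝ) ≠ 0 := by positivity
  have h5 := ((IsUnit.mk0 _ (inv_ne_zero hne)).map (algebraMap ℝ B)).mul h4
  rwa [Algebra.algebraMap_eq_smul_one, smul_one_mul, inv_smul_smul₀ hne] at h5

/-- A function constant near zero acts on the kernel as its value at zero. -/
lemma cfc_mul_of_mul_eq_zero {Y y : B} (hYsa : IsSelfAdjoint Y) (hYy : Y * y = 0) {e : ℝ}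
    (he : 0 < e) {g : ℝ → ℝ} (hg : Continuous g) (hg0 : ∀ t, t ≤ e → g t = g 0) :
    cfc g Y * y = g 0 • y := by
  have hk : Continuous fun t => (g t - g 0) / max t e :=
    Continuous.div (by fun_prop) (by fun_prop) fun t => (he.trans_le (le_max_right t e)).ne'
  have e1 : ∀ t ∈ spectrum ℝ Y, g t = g 0 + (g t - g 0) / max t e * t := by
    intro t _
    rcases le_total t e with hte | hte
    · simp [hg0 t hte]
    · rw [max_eq_left hte, div_mul_cancel₀ _ (ne_of_gt (he.trans_le hte))]; ring
  rw [cfc_congr e1, cfc_const_add _ _ Y (hk.fun_mul continuous_id').continuousOn,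
    cfc_mul _ _ Y hk.continuousOn, cfc_id' ℝ Y, add_mul, mul_assoc, hYy, mul_zero, add_zero,
    Algebra.algebraMap_eq_smul_one, smul_one_mul]

theorem nonempty_core_of_sq_zero {y : B} (hy : y * y = 0) {k : ℕ} (u v : Fin k → B)
    (h : ∑ r, u r * y * v r = 1) : Nonempty (Core B) := by
  let : PartialOrder B := CStarAlgebra.spectralOrder B
  let : StarOrderedRing B := CStarAlgebra.spectralOrderedRing B
  set Y := star y * y with hY
  have hYsa : IsSelfAdjoint Y := .star_mul_self y
  have hY0 : (0 : B) ≤ Y := star_mul_self_nonneg y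
  have hYy : Y * y = 0 := by rw [hY, mul_assoc, hy, mul_zero]
  set S := ∑ r, star (v r) * Y * v r
  have hSu : IsUnit S := isUnit_sum_conj u v h
  obtain ⟨ε, hε, hball⟩ := Metric.isOpen_iff.1 Units.isOpen S hSu
  set K : ℝ := ∑ r, ‖v r‖ * ‖v r‖ + 1
  have hK : 0 < K := by positivity
  set e : ℝ := ε / (4 * K) with he'
  have he : 0 < e := by positivity
  obtain ⟨hh, hhh⟩ : ∃ hh : ℝ → ℝ, hh = fun t => max 0 (min 1 ((t - e) / e)) := ⟨_, rfl⟩
  have hhc : Continuous hh := by rw [hhh]; fun_prop
  obtain ⟨gg, hgg⟩ : ∃ gg : ℝ → ℝ, gg = fun t => (Real.sqrt (max t e))⁻¹ := ⟨_, rfl⟩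
  have hggc : Continuous gg := by
    rw [hgg]; exact Continuous.inv₀ (by fun_prop) fun t => by positivity
  have hgt : Continuous fun t => gg t * t := hggc.fun_mul continuous_id'
  have hgtg : Continuous fun t => gg t * t * gg t := hgt.fun_mul hggc
  have hsh : Continuous fun t => Real.sqrt t * hh t := Real.continuous_sqrt.fun_mul hhc
  have htt : Continuous fun t => t * hh t * hh t := (continuous_id'.fun_mul hhc).fun_mul hhc
  set uu := y * cfc gg Y
  set β := cfc (fun t => Real.sqrt t * hh t) Y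
  have hspec : ∀ t ∈ spectrum ℝ Y, 0 ≤ t := fun t ht => spectrum_nonneg_of_nonneg hY0 ht
  have hgy : cfc gg Y * y = gg 0 • y :=
    cfc_mul_of_mul_eq_zero hYsa hYy he hggc fun t ht => by simp [hgg, max_eq_right ht, he.le]
  have huu : star uu * uu = cfc (fun t => gg t * t * gg t) Y := by
    rw [cfc_mul _ _ Y hgt.continuousOn hggc.continuousOn,
      cfc_mul _ _ Y hggc.continuousOn (continuousOn_id' _), cfc_id' ℝ Y]
    rw [star_mul, (IsSelfAdjoint.cfc (f := gg) (a := Y)).star_eq]
    simp only [uu, hY, mul_assoc]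
  have hnorm : ‖uu‖ ≤ 1 := by
    refine le_of_sq_le_sq ?_ zero_le_one
    rw [sq, ← CStarRing.norm_star_mul_self, huu, one_pow]
    refine norm_cfc_le zero_le_one fun t ht => ?_
    have := hspec t ht
    have hm : 0 < max t e := he.trans_le (le_max_right t e)
    have e3 : gg t * t * gg t = t / max t e := by
      rw [hgg, mul_comm _ t, mul_assoc, ← mul_inv, Real.mul_self_sqrt hm.le, div_eq_mul_inv]
    rw [Real.norm_eq_abs, e3, abs_of_nonneg (div_nonneg this hm.le), div_le_one hm]
    exact le_max_left _ _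
  have hfix : star uu * uu * β = β := by
    rw [huu, ← cfc_mul _ _ Y hgtg.continuousOn hsh.continuousOn]
    refine cfc_congr fun t ht => ?_
    rcases le_total t e with hte | hte
    · have : hh t = 0 := by
        simp only [hhh]
        exact max_eq_left ((min_le_right _ _).trans
          (div_nonpos_of_nonpos_of_nonneg (by linarith) he.le))
      simp [this]
    · simp only [hgg, max_eq_left hte]
      have : Real.sqrt t ≠ 0 := by have := he.trans_le hte; positivity
      field_simp
      rw [Real.sq_sqrt (hspec t ht)]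
  have hββ : β * β = cfc (fun t => t * hh t * hh t) Y := by
    rw [← cfc_mul _ _ Y hsh.continuousOn hsh.continuousOn]
    refine cfc_congr fun t ht => ?_
    have := Real.mul_self_sqrt (hspec t ht)
    linear_combination hh t * hh t * this
  set S' := ∑ r, star (v r) * (β * β) * v r
  have hS' : IsUnit S' := by
    refine hball ?_
    have hd : ‖β * β - Y‖ ≤ 2 * e := by
      have e2 : cfc (fun t => t * hh t * hh t - t) Y = β * β - Y := by
        rw [cfc_sub _ _ Y htt.continuousOn (continuousOn_id' _), cfc_id' ℝ Y, hββ]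
      rw [← e2]
      refine norm_cfc_le (by positivity) fun t ht => ?_
      have ht0 := hspec t ht
      rcases le_total (2 * e) t with h2e | h2e
      · have : hh t = 1 := by
          simp only [hhh]
          rw [min_eq_left ((one_le_div he).2 (by linarith)), max_eq_right zero_le_one]
        simp [this, he.le]
      · have h01 : 0 ≤ hh t ∧ hh t ≤ 1 := by simp [hhh]
        rw [Real.norm_eq_abs, abs_le]
        constructor <;> nlinarith [mul_nonneg ht0 h01.1, mul_le_mul h01.2 h01.2 h01.1 zero_le_one]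
    rw [Metric.mem_ball, dist_eq_norm]
    calc ‖S' - S‖ = ‖∑ r, star (v r) * (β * β - Y) * v r‖ := by
          simp only [S', S, mul_sub, sub_mul, Finset.sum_sub_distrib]
      _ ≤ ∑ r, ‖v r‖ * ‖v r‖ * (2 * e) := by
          refine norm_sum_le_of_le _ fun r _ => ?_
          refine (norm_mul_le _ _).trans ((mul_le_mul_of_nonneg_right (norm_mul_le _ _)
            (norm_nonneg _)).trans ?_)
          rw [norm_star]
          nlinarith [mul_le_mul_of_nonneg_left hd (mul_self_nonneg ‖v r‖)]
      _ < K * (2 * e) := by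
          rw [← Finset.sum_mul]
          exact mul_lt_mul_of_pos_right (lt_add_one _) (by positivity)
      _ < ε := by rw [he']; field_simp; linarith
  have hβsa : IsSelfAdjoint β := .cfc
  have hS'0 : 0 ≤ S' := Finset.sum_nonneg fun r _ => star_left_conjugate_nonneg
    (hβsa.mul_self_nonneg) _
  have hsp : IsStrictlyPositive S' := hS'.isStrictlyPositive hS'0
  have hR : star (S' ^ (-(1 / 2) : ℝ)) = S' ^ (-(1 / 2) : ℝ) :=
    (IsSelfAdjoint.of_nonneg CFC.rpow_nonneg).star_eq
  refine ⟨⟨k, uu, β, fun r => v r * S' ^ (-(1 / 2) : ℝ), ?_, hnorm, hβsa, hfix, ?_⟩⟩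
  · simp only [uu]
    rw [mul_assoc, ← mul_assoc (cfc gg Y), hgy, smul_mul_assoc, mul_smul_comm, ← mul_assoc, hy,
      zero_mul, smul_zero]
  · rw [← CFC.conjugate_rpow_neg_one_half S' hsp]
    simp only [S', Finset.mul_sum, Finset.sum_mul]
    refine Finset.sum_congr rfl fun r _ => ?_
    rw [star_mul, hR]
    simp only [S', mul_assoc]

end Vale.Agent.P101
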