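import Vale.Agent.P101.Pigeonhole
import Vale.Agent.P101.Cut

/-! P101: iterated joins, pigeonhole, and the final pair. -/

namespace Vale.Agent.P101

variable {B : Type*} [CStarAlgebra B]

theorem exists_pair_of_core (hB : HasCopies B) (K : Core B) : ∃ c s : B, DimDropPair c s := by
  classical
  letI := CStarAlgebra.spectralOrder B
  haveI := CStarAlgebra.spectralOrderedRing B
  let F : Finset B := insert K.u (insert K.β (Finset.univ.image K.a))
  obtain ⟨φ, hcomm, -⟩ := hB.exists_copies F ∅ (K.m * K.m + 1)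
  let u₀ : cstarGen (F : Set B) := ⟨K.u, mem_cstarGen_of_mem (by simp [F])⟩
  let β₀ : cstarGen (F : Set B) := ⟨K.β, mem_cstarGen_of_mem (by simp [F])⟩
  let a₀ : Fin K.m → cstarGen (F : Set B) := fun l => ⟨K.a l, mem_cstarGen_of_mem (by simp [F])⟩
  have hsa : star β₀ = β₀ := Subtype.ext K.sa
  have hsum : ∑ l, star (a₀ l) * β₀ * β₀ * a₀ l = 1 := by
    apply Subtype.ext
    rw [AddSubmonoidClass.coe_finsetSum]
    exact K.sum_eq
  let D : Slots B :=
    { m := K.m
      N := K.m * K.m + 1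
      hN := Nat.lt_succ_self _
      u := fun i => φ i u₀
      β := fun i => φ i β₀
      a := fun i l => φ i (a₀ l)
      sq := fun i => by
        rw [← map_mul, show u₀ * u₀ = 0 from Subtype.ext K.sq, map_zero]
      norm_le := fun i => (NonUnitalStarAlgHom.norm_apply_le (φ i) u₀).trans K.norm_le
      sa := fun i => by rw [← map_star, hsa]
      fix := fun i => by
        rw [← map_star, ← map_mul, ← map_mul, show star u₀ * u₀ * β₀ = β₀ from Subtype.ext K.fix]
      sum_eq := fun i => by simp only [← map_star, ← map_mul, ← map_sum, hsum, map_one]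
      comm := fun i k hik x hx y hy => by
        have hmem : ∀ j, ∀ z ∈ ({φ j u₀, φ j β₀} : Set B) ∪ Set.range (fun l => φ j (a₀ l)),
            ∃ e, φ j e = z := by
          rintro j z ((rfl | rfl) | ⟨l, rfl⟩)
          exacts [⟨u₀, rfl⟩, ⟨β₀, rfl⟩, ⟨a₀ l, rfl⟩]
        obtain ⟨x', rfl⟩ := hmem i x hx
        obtain ⟨y', rfl⟩ := hmem k y hy
        exact ⟨hcomm i k hik x' y', by rw [← map_star]; exact hcomm i k hik _ y'⟩ }
  exact Slots.exists_pair D

theorem exists_dimDropPair (hB : HasCopies B) (h : IsEmpty (B →⋆ₐ[ℂ] ℂ)) :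
    ∃ c s : B, DimDropPair c s := by
  obtain ⟨H, n, a, c, d, hH, hid⟩ := exists_full_commutator hB h
  obtain ⟨y, hy, k, u, v, huv⟩ :=
    exists_full_sq_zero hB (fun p => exists_orthogonal_full hB hH a c d hid p)
  obtain ⟨K⟩ := nonempty_core_of_sq_zero hy u v huv
  exact exists_pair_of_core hB K

theorem isEmpty_of_dimDropPair (h : ∃ c s : B, DimDropPair c s) : IsEmpty (B →⋆ₐ[ℂ] ℂ) := by
  obtain ⟨c, s, hc, hs, hcs⟩ := h
  refine ⟨fun φ => ?_⟩
  have h1 := congrArg φ hc
  have h2 := congrArg φ hs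
  have h3 := congrArg φ hcs
  simp only [map_mul, map_zero, map_sub, map_one] at h1 h2 h3
  have hc0 : φ c = 0 := by simpa using mul_self_eq_zero.mp h1
  rw [hc0] at h2 h3
  simp only [mul_zero, zero_mul, sub_zero] at h2 h3
  simp [← h3] at h2

end Vale.Agent.P101
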