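import Vale.Agent.P101.Defs

/-! P101: maximal closed two-sided ideals and the factor lemma for commuting subalgebras. -/

namespace Vale.Agent.P101

variable {E : Type*} [CStarAlgebra E]

/-- A maximal two-sided ideal of a unital C*-algebra, as a submodule over the scalars. -/
structure MaxIdeal (E : Type*) [CStarAlgebra E] where
  toSubmodule : Submodule ℂ E
  mul_left : ∀ (a : E) {x : E}, x ∈ toSubmodule → a * x ∈ toSubmodule
  mul_right : ∀ {x : E} (a : E), x ∈ toSubmodule → x * a ∈ toSubmodule
  star_mem : ∀ {x : E}, x ∈ toSubmodule → star x ∈ toSubmodule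
  closed : IsClosed (toSubmodule : Set E)
  one_notMem : (1 : E) ∉ toSubmodule
  exists_unit : ∀ z ∉ toSubmodule, ∃ (n : ℕ) (a b : Fin n → E),
    (∑ r, a r * z * b r) - 1 ∈ toSubmodule

/-- A two-sided ideal, as a submodule. -/
def IsBi (I : Submodule ℂ E) : Prop :=
  ∀ (a : E) {x : E}, x ∈ I → a * x ∈ I ∧ x * a ∈ I

lemma IsBi.topClosure {I : Submodule ℂ E} (h : IsBi I) : IsBi I.topologicalClosure := by
  intro a x hx
  exact ⟨map_mem_closure (f := fun y => a * y) (continuous_const_mul a) hx fun y hy => (h a hy).1,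
    map_mem_closure (f := fun y => y * a) (continuous_mul_const a) hx fun y hy => (h a hy).2⟩

lemma IsBi.one_notMem_closure {I : Submodule ℂ E} (h : IsBi I) (h1 : (1 : E) ∉ I) :
    (1 : E) ∉ I.topologicalClosure := by
  intro hc
  obtain ⟨e, he, hd⟩ := Metric.mem_closure_iff.1 (show (1 : E) ∈ _root_.closure (I : Set E) from hc) 1
    one_pos
  rw [dist_eq_norm] at hd
  apply h1
  obtain ⟨u, hu⟩ : IsUnit e := by
    simpa using isUnit_one_sub_of_norm_lt_one hd
  have := (h (↑u⁻¹ : E) he).1
  rwa [← hu, Units.inv_mul] at this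

/-- The ideal generated by a set. -/
noncomputable def bi (X : Set E) : Submodule ℂ E :=
  Submodule.span ℂ {e | ∃ a b x, x ∈ X ∧ e = a * x * b}

lemma isBi_bi (X : Set E) : IsBi (bi X) := by
  intro c e he
  induction he using Submodule.span_induction with
  | mem e he =>
    obtain ⟨a, b, x, hx, rfl⟩ := he
    exact ⟨Submodule.subset_span ⟨c * a, b, x, hx, by simp [mul_assoc]⟩,
      Submodule.subset_span ⟨a, b * c, x, hx, by simp [mul_assoc]⟩⟩
  | zero => simp
  | add y z _ _ hy hz =>
    rw [mul_add, add_mul]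
    exact ⟨add_mem hy.1 hz.1, add_mem hy.2 hz.2⟩
  | smul r y _ hy =>
    rw [mul_smul_comm, smul_mul_assoc]
    exact ⟨Submodule.smul_mem _ r hy.1, Submodule.smul_mem _ r hy.2⟩

lemma subset_bi (X : Set E) : X ⊆ bi X := fun x hx =>
  Submodule.subset_span ⟨1, 1, x, hx, by simp⟩

lemma exists_sum_of_mem_bi {X : Set E} {e : E} (he : e ∈ bi X) :
    ∃ (n : ℕ) (a b : Fin n → E) (x : Fin n → E), (∀ r, x r ∈ X) ∧ ∑ r, a r * x r * b r = e := by
  induction he using Submodule.span_induction with
  | mem e he =>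
    obtain ⟨a, b, x, hx, rfl⟩ := he
    exact ⟨1, fun _ => a, fun _ => b, fun _ => x, fun _ => hx, by simp⟩
  | zero => exact ⟨0, Fin.elim0, Fin.elim0, Fin.elim0, fun r => r.elim0, by simp⟩
  | add y z _ _ hy hz =>
    obtain ⟨n, a, b, x, hx, rfl⟩ := hy
    obtain ⟨n', a', b', x', hx', rfl⟩ := hz
    refine ⟨n + n', Fin.append a a', Fin.append b b', Fin.append x x', fun r => ?_, ?_⟩
    · induction r using Fin.addCases with
      | left i => simpa using hx i
      | right i => simpa using hx' i
    · simp [Fin.sum_univ_add]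
  | smul c y _ hy =>
    obtain ⟨n, a, b, x, hx, rfl⟩ := hy
    exact ⟨n, c • a, b, x, hx, by simp [Finset.smul_sum]⟩

/-- A closed ideal is closed under star. -/
lemma IsBi.star_mem {I : Submodule ℂ E} (h : IsBi I) (hcl : IsClosed (I : Set E)) {x : E}
    (hx : x ∈ I) : star x ∈ I := by
  rw [← SetLike.mem_coe, ← hcl.closure_eq, Metric.mem_closure_iff]
  intro ε hε
  set η := (ε / 2) ^ 4
  have hη : 0 < η := by positivity
  set y := x * star x with hy
  have hys : IsSelfAdjoint y := IsSelfAdjoint.mul_star_self x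
  have hc : Continuous fun t : ℝ => η / (t ^ 2 + η) :=
    continuous_const.div (by fun_prop) fun t => by positivity
  have hk : Continuous fun t : ℝ => t / (t ^ 2 + η) :=
    continuous_id.div (by fun_prop) fun t => by positivity
  set z := star x * cfc (fun t : ℝ => η / (t ^ 2 + η)) y
  have hyI : y ∈ I := (h (star x) hx).2
  refine ⟨star x * (y * cfc (fun t : ℝ => t / (t ^ 2 + η)) y),
    (h _ (h _ hyI).2).1, ?_⟩
  have hz : star x - star x * (y * cfc (fun t : ℝ => t / (t ^ 2 + η)) y) = z := by
    have h1 : y * cfc (fun t : ℝ => t / (t ^ 2 + η)) y =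
        cfc (fun t : ℝ => t * (t / (t ^ 2 + η))) y := by
      rw [cfc_mul (fun t : ℝ => t) (fun t : ℝ => t / (t ^ 2 + η)) y continuous_id.continuousOn
        hk.continuousOn, cfc_id' ℝ y]
    have h2 : cfc (fun t : ℝ => η / (t ^ 2 + η)) y =
        cfc (fun t : ℝ => 1 - t * (t / (t ^ 2 + η))) y :=
      cfc_congr fun t _ => by
        have : t ^ 2 + η ≠ 0 := by positivity
        field_simp
        ring
    simp only [z]
    rw [h2, cfc_sub (fun _ : ℝ => (1 : ℝ)) (fun t : ℝ => t * (t / (t ^ 2 + η))) y
      continuous_const.continuousOn (continuous_id.mul hk).continuousOn, cfc_const_one ℝ y, h1,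
      mul_sub, mul_one]
  rw [dist_eq_norm, hz]
  have hzz : ‖star z * z‖ ≤ (ε / 2) ^ 2 := by
    have h1 : star z * z = cfc (fun t : ℝ => η / (t ^ 2 + η)) y * y *
        cfc (fun t : ℝ => η / (t ^ 2 + η)) y := by
      simp only [z, hy, star_mul, star_star, mul_assoc,
        (cfc_predicate (fun t : ℝ => η / (t ^ 2 + η)) (x * star x)).star_eq]
    have h2 : cfc (fun t : ℝ => η / (t ^ 2 + η)) y * y * cfc (fun t : ℝ => η / (t ^ 2 + η)) y =
        cfc (fun t : ℝ => η / (t ^ 2 + η) * t * (η / (t ^ 2 + η))) y := by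
      rw [cfc_mul (fun t : ℝ => η / (t ^ 2 + η) * t) (fun t : ℝ => η / (t ^ 2 + η)) y
          (hc.mul continuous_id).continuousOn hc.continuousOn,
        cfc_mul (fun t : ℝ => η / (t ^ 2 + η)) (fun t : ℝ => t) y hc.continuousOn
          continuous_id.continuousOn, cfc_id' ℝ y]
    rw [h1, h2]
    refine norm_cfc_le (by positivity) fun t _ => ?_
    rw [Real.norm_eq_abs, abs_mul, abs_mul, abs_div, abs_of_pos hη,
      abs_of_pos (show 0 < t ^ 2 + η by positivity)]
    have hs : (ε / 2) ^ 2 * (2 * |t|) ≤ t ^ 2 + η := by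
      have := sq_nonneg (|t| - (ε / 2) ^ 2)
      rw [show η = ((ε / 2) ^ 2) ^ 2 from by simp only [η]; ring, ← sq_abs t]
      linarith
    have hp : 0 < t ^ 2 + η := by positivity
    have h1 : η / (t ^ 2 + η) ≤ 1 := by rw [div_le_one hp]; nlinarith
    calc η / (t ^ 2 + η) * |t| * (η / (t ^ 2 + η)) ≤ η / (t ^ 2 + η) * |t| * 1 :=
          mul_le_mul_of_nonneg_left h1 (by positivity)
      _ ≤ (ε / 2) ^ 2 := by
          rw [mul_one, div_mul_eq_mul_div, div_le_iff₀ hp,
            show η = (ε / 2) ^ 2 * (ε / 2) ^ 2 from by simp only [η]; ring]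
          rw [show η = (ε / 2) ^ 2 * (ε / 2) ^ 2 from by simp only [η]; ring] at hs
          nlinarith [pow_pos (half_pos hε) 2, abs_nonneg t]
  rw [CStarRing.norm_star_mul_self] at hzz
  nlinarith [norm_nonneg z]

/-- Either the ideal generated by `X` contains one, or a maximal ideal contains `X`. -/
theorem exists_identity_or_maxIdeal (X : Set E) :
    (∃ (n : ℕ) (a b : Fin n → E) (x : Fin n → E), (∀ r, x r ∈ X) ∧ ∑ r, a r * x r * b r = 1) ∨
      ∃ J : MaxIdeal E, X ⊆ J.toSubmodule := by
  by_cases h1 : (1 : E) ∈ bi X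
  · exact Or.inl (exists_sum_of_mem_bi h1)
  right
  obtain ⟨M, hXM, ⟨hM, hM1⟩, hmax⟩ := zorn_le_nonempty₀ {I : Submodule ℂ E | IsBi I ∧ (1 : E) ∉ I}
    (fun c hc hchain y hy => by
      refine ⟨sSup c, ?_, fun z hz => le_sSup hz⟩
      have hmem : ∀ {e : E}, e ∈ sSup c ↔ ∃ I ∈ c, e ∈ I := fun {e} =>
        Submodule.mem_sSup_of_directed ⟨y, hy⟩ hchain.directedOn
      refine ⟨fun a x hx => ?_, fun h => ?_⟩
      · obtain ⟨I, hI, hxI⟩ := hmem.1 hx
        exact ⟨hmem.2 ⟨I, hI, ((hc hI).1 a hxI).1⟩, hmem.2 ⟨I, hI, ((hc hI).1 a hxI).2⟩⟩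
      · obtain ⟨I, hI, hxI⟩ := hmem.1 h
        exact (hc hI).2 hxI)
    (bi X) ⟨isBi_bi X, h1⟩
  have hcl : IsClosed (M : Set E) := by
    have := hmax ⟨hM.topClosure, hM.one_notMem_closure hM1⟩ M.le_topologicalClosure
    rw [show M = M.topologicalClosure from le_antisymm M.le_topologicalClosure this]
    exact M.isClosed_topologicalClosure
  refine ⟨⟨M, fun a x hx => (hM a hx).1, fun {x} a hx => (hM a hx).2,
    fun hx => hM.star_mem hcl hx, hcl, hM1, fun z hz => ?_⟩, (subset_bi X).trans hXM⟩
  have hins : (1 : E) ∈ M ⊔ bi {z} := by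
    by_contra h
    have hbi : IsBi (M ⊔ bi {z}) := fun a x hx => by
      obtain ⟨m, hm, w, hw, rfl⟩ := Submodule.mem_sup.1 hx
      rw [mul_add, add_mul]
      exact ⟨Submodule.add_mem_sup (hM a hm).1 (isBi_bi _ a hw).1,
        Submodule.add_mem_sup (hM a hm).2 (isBi_bi _ a hw).2⟩
    exact hz (hmax ⟨hbi, h⟩ le_sup_left
      (Submodule.mem_sup_right (subset_bi _ (Set.mem_singleton z))))
  obtain ⟨m, hm, w, hw, hmw⟩ := Submodule.mem_sup.1 hins
  obtain ⟨n, a, b, x, hx, rfl⟩ := exists_sum_of_mem_bi hw
  refine ⟨n, a, b, ?_⟩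
  have hx' : ∀ r, x r = z := hx
  simp only [hx'] at hmw
  rw [← hmw, sub_add_cancel_right]
  exact neg_mem hm

theorem MaxIdeal.central_scalar (J : MaxIdeal E) {z : E}
    (hz : ∀ y, z * y - y * z ∈ J.toSubmodule) : ∃ r : ℂ, z - r • 1 ∈ J.toSubmodule := by
  have hclI : IsClosed (J.toSubmodule : Set E) := J.closed
  let T : E → ((E ⧸ J.toSubmodule) →L[ℂ] (E ⧸ J.toSubmodule)) := fun w =>
    ⟨J.toSubmodule.mapQ J.toSubmodule (LinearMap.mulLeft ℂ w) (fun _ hx => J.mul_left w hx), by
      rw [J.toSubmodule.isQuotientMap_mkQ.continuous_iff]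
      exact continuous_quot_mk.comp (continuous_const_mul w)⟩
  have hT : ∀ w x, T w (Submodule.Quotient.mk x) = Submodule.Quotient.mk (w * x) := fun w x => rfl
  have hTmul : ∀ v w, T v * T w = T (v * w) := fun v w => by
    ext q
    induction q using Submodule.Quotient.induction_on with
    | H x =>
      show T v (T w (Submodule.Quotient.mk x)) = _
      rw [hT, hT, hT, mul_assoc]
  have hTcongr : ∀ v w, v - w ∈ J.toSubmodule → T v = T w := fun v w h => by
    ext q
    induction q using Submodule.Quotient.induction_on with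
    | H x => rw [hT, hT, Submodule.Quotient.eq, ← sub_mul]; exact J.mul_right x h
  have hT1 : T 1 = 1 := by
    ext q
    induction q using Submodule.Quotient.induction_on with
    | H x => rw [hT, one_mul]; rfl
  have : Nontrivial (E ⧸ J.toSubmodule) :=
    Submodule.Quotient.nontrivial_iff.2 fun h => J.one_notMem (h ▸ Submodule.mem_top)
  have : IsClosed (J.toSubmodule : Set E) := J.closed
  obtain ⟨r, hr⟩ := spectrum.nonempty (T z)
  refine ⟨r, by_contra fun hw => hr ?_⟩
  obtain ⟨n, a, b, hab⟩ := J.exists_unit _ hw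
  set w := z - r • (1 : E)
  have hwc : ∀ y, w * y - y * w ∈ J.toSubmodule := fun y => by
    have : w * y - y * w = z * y - y * z := by simp [w, sub_mul, mul_sub]
    exact this ▸ hz y
  set v := ∑ i, a i * b i
  have hwv : w * v - 1 ∈ J.toSubmodule := by
    have : w * v - 1 = ∑ i, (w * a i - a i * w) * b i + (∑ i, a i * w * b i - 1) := by
      simp [v, Finset.mul_sum, sub_mul, Finset.sum_sub_distrib, mul_assoc]
    rw [this]
    exact add_mem (sum_mem fun i _ => J.mul_right _ (hwc _)) hab
  have hvw : v * w - 1 ∈ J.toSubmodule := by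
    have : v * w - 1 = (w * v - 1) - (w * v - v * w) := by abel
    rw [this]
    exact sub_mem hwv (hwc v)
  have hTw : algebraMap ℂ _ r - T z = -T w := by
    ext q
    induction q using Submodule.Quotient.induction_on with
    | H x =>
      rw [Algebra.algebraMap_eq_smul_one]
      simp only [sub_apply, neg_apply, ContinuousLinearMap.smul_apply,
        ContinuousLinearMap.one_apply, hT, w, sub_mul, smul_mul_assoc, one_mul,
        Submodule.Quotient.mk_sub, Submodule.Quotient.mk_smul, neg_sub]
  rw [spectrum.mem_resolventSet_iff, hTw]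
  exact (Units.mk (T w) (T v) (by rw [hTmul, hTcongr _ _ hwv, hT1])
    (by rw [hTmul, hTcongr _ _ hvw, hT1])).isUnit.neg

/-- If `∑ aᵢ z bᵢ` vanishes for all `z` and the `bᵢ` are independent, the `aᵢ` vanish. -/
lemma MaxIdeal.elementary_indep (J : MaxIdeal E) {ι : Type*} [DecidableEq ι] (s : Finset ι)
    (b : ι → E) (hb : ∀ c : ι → ℂ, ∑ i ∈ s, c i • b i ∈ J.toSubmodule → ∀ i ∈ s, c i = 0) :
    ∀ a : ι → E, (∀ z, ∑ i ∈ s, a i * z * b i ∈ J.toSubmodule) →
      ∀ i ∈ s, a i ∈ J.toSubmodule := by
  induction s using Finset.induction with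
  | empty => simp
  | insert j s hj ih =>
    have hbs : ∀ c : ι → ℂ, ∑ i ∈ s, c i • b i ∈ J.toSubmodule → ∀ i ∈ s, c i = 0 := fun c hc i hi => by
      have := hb (Function.update c j 0) (by
        rw [Finset.sum_insert hj, Function.update_self, zero_smul, zero_add]
        rwa [Finset.sum_congr rfl fun i hi => by
          rw [Function.update_of_ne (ne_of_mem_of_not_mem hi hj)]]) i (Finset.mem_insert_of_mem hi)
      rwa [Function.update_of_ne (ne_of_mem_of_not_mem hi hj)] at this
    intro a ha
    by_cases haj : a j ∈ J.toSubmodule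
    · intro i hi
      rcases Finset.mem_insert.1 hi with rfl | hi
      · exact haj
      refine ih hbs a (fun z => ?_) i hi
      have := ha z
      rw [Finset.sum_insert hj] at this
      exact (Submodule.add_mem_iff_right _ (J.mul_right _ (J.mul_right z haj))).1 this
    exfalso
    obtain ⟨n, p, q, hpq⟩ := J.exists_unit _ haj
    let zc : ι → E := fun i => ∑ r, p r * a i * q r
    have hzc : ∀ z, z * b j + ∑ i ∈ s, zc i * z * b i ∈ J.toSubmodule := fun z => by
      have h1 : ∑ r, p r * ∑ i ∈ insert j s, a i * (q r * z) * b i ∈ J.toSubmodule :=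
        sum_mem fun r _ => J.mul_left _ (ha _)
      have h2 : ∑ r, p r * ∑ i ∈ insert j s, a i * (q r * z) * b i =
          zc j * z * b j + ∑ i ∈ s, zc i * z * b i := by
        rw [Finset.sum_congr rfl fun r _ => Finset.mul_sum _ _ _, Finset.sum_comm,
          Finset.sum_insert hj]
        simp [zc, Finset.sum_mul, mul_assoc]
      have h3 : z * b j + ∑ i ∈ s, zc i * z * b i =
          (zc j * z * b j + ∑ i ∈ s, zc i * z * b i) - (zc j - 1) * z * b j := by
        simp [sub_mul]
        abel
      rw [h3, ← h2]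
      exact sub_mem h1 (J.mul_right _ (J.mul_right _ hpq))
    have hcent : ∀ i ∈ s, ∃ r : ℂ, zc i - r • 1 ∈ J.toSubmodule := fun i hi =>
      J.central_scalar fun y => by
        refine ih hbs (fun i => zc i * y - y * zc i) (fun z => ?_) i hi
        have : ∑ i ∈ s, (zc i * y - y * zc i) * z * b i = (y * z * b j + ∑ i ∈ s, zc i * (y * z) * b i)
            - y * (z * b j + ∑ i ∈ s, zc i * z * b i) := by
          simp [sub_mul, Finset.sum_sub_distrib, Finset.mul_sum, mul_add, mul_assoc]
        rw [this]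
        exact sub_mem (hzc _) (J.mul_left _ (hzc _))
    choose r hr using hcent
    classical
    have := hb (fun i => if h : i ∈ s then r i h else 1) (by
      rw [Finset.sum_insert hj, dif_neg hj, one_smul]
      have e : b j + ∑ i ∈ s, (if h : i ∈ s then r i h else (1 : ℂ)) • b i =
          (1 * b j + ∑ i ∈ s, zc i * 1 * b i) -
            ∑ i ∈ s, (zc i - (if h : i ∈ s then r i h else (1 : ℂ)) • 1) * b i := by
        simp [sub_mul, Finset.sum_sub_distrib]
        abel
      rw [e]
      refine sub_mem (hzc 1) (sum_mem fun i hi => J.mul_right _ ?_)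
      rw [dif_pos hi]
      exact hr i hi) j (Finset.mem_insert_self j s)
    rw [dif_neg hj] at this
    exact one_ne_zero this

/-- If `∑ aᵢ z bᵢ` vanishes for all `z`, then contracting the `bᵢ` with a functional kills it. -/
lemma MaxIdeal.contract (J : MaxIdeal E) {ι : Type*} [Fintype ι] (a b : ι → E)
    (h : ∀ z, ∑ i, a i * z * b i ∈ J.toSubmodule) (f : E →ₗ[ℂ] ℂ)
    (hf : ∀ x ∈ J.toSubmodule, f x = 0) : ∑ i, f (b i) • a i ∈ J.toSubmodule := by
  classical
  set W := Submodule.span ℂ (Set.range fun i => (Submodule.Quotient.mk (b i) : E ⧸ J.toSubmodule))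
  have : FiniteDimensional ℂ W := FiniteDimensional.span_of_finite ℂ (Set.finite_range _)
  let β := Module.finBasis ℂ W
  choose e he using fun r => Submodule.Quotient.mk_surjective J.toSubmodule (β r : E ⧸ J.toSubmodule)
  let L : ι → Fin (Module.finrank ℂ W) → ℂ := fun i r =>
    β.repr ⟨_, Submodule.subset_span ⟨i, rfl⟩⟩ r
  have hbL : ∀ i, b i - ∑ r, L i r • e r ∈ J.toSubmodule := fun i => by
    rw [← Submodule.Quotient.eq, ← Submodule.mkQ_apply, ← Submodule.mkQ_apply, map_sum]
    simp only [map_smul, Submodule.mkQ_apply, he, L]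
    have := congrArg (W.subtype) (β.sum_repr ⟨_, Submodule.subset_span ⟨i, rfl⟩⟩)
    simp only [map_sum, map_smul, Submodule.subtype_apply] at this
    exact this.symm
  have hmem : ∀ r, ∑ i, L i r • a i ∈ J.toSubmodule := fun r => by
    refine J.elementary_indep Finset.univ e (fun c hc => ?_) (fun r => ∑ i, L i r • a i)
      (fun z => ?_) r (Finset.mem_univ r)
    · have h0 : ∑ r, c r • β r = 0 := by
        apply Subtype.ext
        simp only [AddSubmonoidClass.coe_finsetSum, SetLike.val_smul, ZeroMemClass.coe_zero]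
        rw [← Submodule.Quotient.mk_eq_zero, ← Submodule.mkQ_apply, map_sum] at hc
        simp only [map_smul, Submodule.mkQ_apply, he] at hc
        exact hc
      exact fun r _ => Fintype.linearIndependent_iff.1 β.linearIndependent c h0 r
    · have : ∑ r, (∑ i, L i r • a i) * z * e r =
          ∑ i, a i * z * b i - ∑ i, a i * z * (b i - ∑ r, L i r • e r) := by
        simp only [mul_sub, Finset.sum_sub_distrib, sub_sub_cancel, Finset.mul_sum, Finset.sum_mul,
          smul_mul_assoc, mul_smul_comm]
        exact Finset.sum_comm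
      rw [this]
      exact sub_mem (h z) (sum_mem fun i _ => J.mul_left _ (hbL i))
  have hfb : ∀ i, f (b i) = ∑ r, L i r * f (e r) := fun i => by
    have := hf _ (hbL i)
    simp only [map_sub, map_sum, map_smul, smul_eq_mul, sub_eq_zero] at this
    exact this
  have : ∑ i, f (b i) • a i = ∑ r, f (e r) • ∑ i, L i r • a i := by
    simp only [hfb, Finset.sum_smul, Finset.smul_sum, smul_smul, mul_comm (L _ _)]
    exact Finset.sum_comm
  rw [this]
  exact sum_mem fun r _ => Submodule.smul_mem _ _ (hmem r)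

/-- `G₁` and `G₂` are commuting generating sets, closed under star. -/
def Splits (G₁ G₂ : Set E) : Prop :=
  (∀ x ∈ G₁, star x ∈ G₁) ∧ (∀ x ∈ G₂, star x ∈ G₂) ∧
    (∀ x ∈ G₁, ∀ y ∈ G₂, Commute x y) ∧ cstarGen (G₁ ∪ G₂) = ⊤

/-- Factor lemma: in a simple quotient, `∑ a b = 0` kills the coefficients. -/
theorem MaxIdeal.factor (J : MaxIdeal E) {G₁ G₂ : Set E} (h : Splits G₁ G₂)
    {ι : Type*} [Fintype ι] (a b : ι → E) (ha : ∀ i, ∀ y ∈ G₂, Commute (a i) y)
    (hb : ∀ i, ∀ x ∈ G₁, Commute (b i) x) (hab : ∑ i, a i * b i ∈ J.toSubmodule)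
    (f : E →ₗ[ℂ] ℂ) (hf : ∀ x ∈ J.toSubmodule, f x = 0) :
    ∑ i, f (b i) • a i ∈ J.toSubmodule := by
  refine J.contract a b (fun z => ?_) f hf
  obtain ⟨hs₁, hs₂, hcomm, htop⟩ := h
  let M : Submodule ℂ E :=
    { carrier := {z | ∑ i, a i * z * b i ∈ J.toSubmodule}
      add_mem' := fun {u v} hu hv => by
        simpa [mul_add, add_mul, Finset.sum_add_distrib] using add_mem hu hv
      zero_mem' := by simp
      smul_mem' := fun c u hu => by
        simpa [mul_smul_comm, smul_mul_assoc, ← Finset.smul_sum] using Submodule.smul_mem _ c hu }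
  have hMc : IsClosed (M : Set E) :=
    J.closed.preimage (f := fun z => ∑ i, a i * z * b i) (by fun_prop)
  have hstar : star (G₁ ∪ G₂) = G₁ ∪ G₂ := by
    ext x
    simp only [Set.mem_star, Set.mem_union]
    constructor
    · rintro (hx | hx)
      · exact Or.inl (by simpa using hs₁ _ hx)
      · exact Or.inr (by simpa using hs₂ _ hx)
    · rintro (hx | hx)
      exacts [Or.inl (hs₁ _ hx), Or.inr (hs₂ _ hx)]
  have hword : ∀ m ∈ Submonoid.closure (G₁ ∪ G₂),
      ∃ x ∈ Submonoid.closure G₁, ∃ y ∈ Submonoid.closure G₂, m = x * y := by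
    have hcc : ∀ x ∈ Submonoid.closure G₁, ∀ y ∈ Submonoid.closure G₂, Commute y x := by
      intro x hx y hy
      induction hy using Submonoid.closure_induction with
      | mem y hy =>
        induction hx using Submonoid.closure_induction with
        | mem x hx => exact (hcomm x hx y hy).symm
        | one => exact Commute.one_right y
        | mul u v _ _ hu hv => exact hu.mul_right hv
      | one => exact Commute.one_left x
      | mul u v _ _ hu hv => exact hu.mul_left hv
    intro m hm
    induction hm using Submonoid.closure_induction with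
    | mem m hm =>
      rcases hm with hm | hm
      · exact ⟨m, Submonoid.subset_closure hm, 1, one_mem _, (mul_one m).symm⟩
      · exact ⟨1, one_mem _, m, Submonoid.subset_closure hm, (one_mul m).symm⟩
    | one => exact ⟨1, one_mem _, 1, one_mem _, (one_mul 1).symm⟩
    | mul u v _ _ hu hv =>
      obtain ⟨x, hx, y, hy, rfl⟩ := hu
      obtain ⟨x', hx', y', hy', rfl⟩ := hv
      exact ⟨x * x', mul_mem hx hx', y * y', mul_mem hy hy',
        (hcc x' hx' y hy).mul_mul_mul_comm x y'⟩
  have hM : (StarAlgebra.adjoin ℂ (G₁ ∪ G₂) : Set E) ⊆ M := by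
    intro u hu
    rw [SetLike.mem_coe, ← StarSubalgebra.mem_toSubalgebra, StarAlgebra.adjoin_toSubalgebra,
      hstar, Set.union_self, ← Subalgebra.mem_toSubmodule, Algebra.adjoin_eq_span] at hu
    refine Submodule.span_le.2 (fun m hm => ?_) hu
    obtain ⟨x, hx, y, hy, rfl⟩ := hword m hm
    clear hm
    show ∑ i, a i * (x * y) * b i ∈ J.toSubmodule
    have hay : ∀ i, Commute (a i) y := fun i => by
      induction hy using Submonoid.closure_induction with
      | mem y hy => exact ha i y hy
      | one => exact Commute.one_right _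
      | mul u v _ _ hu hv => exact hu.mul_right hv
    have hxy : Commute x y := by
      clear hay
      induction hx using Submonoid.closure_induction with
      | mem x hx =>
        induction hy using Submonoid.closure_induction with
        | mem y hy => exact hcomm x hx y hy
        | one => exact Commute.one_right x
        | mul u v _ _ hu hv => exact hu.mul_right hv
      | one => exact Commute.one_left y
      | mul u v _ _ hu hv => exact hu.mul_left hv
    have hbx : ∀ i, Commute (b i) x := fun i => by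
      clear hay hxy
      induction hx using Submonoid.closure_induction with
      | mem x hx => exact hb i x hx
      | one => exact Commute.one_right _
      | mul u v _ _ hu hv => exact hu.mul_right hv
    have he : ∀ i, a i * (x * y) * b i = y * (a i * b i) * x := fun i => by
      calc a i * (x * y) * b i = a i * y * (x * b i) := by rw [hxy.eq]; simp [mul_assoc]
        _ = y * a i * (b i * x) := by rw [(hay i).eq, (hbx i).eq]
        _ = _ := by simp [mul_assoc]
    simp only [he, ← Finset.mul_sum, ← Finset.sum_mul]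
    exact J.mul_right _ (J.mul_left _ hab)
  exact closure_minimal hM hMc ((htop ▸ StarSubalgebra.mem_top : z ∈ cstarGen (G₁ ∪ G₂)))

theorem MaxIdeal.mul_notMem (J : MaxIdeal E) {G₁ G₂ : Set E} (h : Splits G₁ G₂) {a b : E}
    (ha : ∀ y ∈ G₂, Commute a y) (hb : ∀ x ∈ G₁, Commute b x)
    (ha' : a ∉ J.toSubmodule) (hb' : b ∉ J.toSubmodule) : a * b ∉ J.toSubmodule := by
  intro hab
  obtain ⟨f, hfb, hf⟩ := Submodule.exists_dual_map_eq_bot_of_notMem hb' inferInstance
  have hf0 : ∀ x ∈ J.toSubmodule, f x = 0 := fun x hx => by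
    have := Submodule.mem_map_of_mem (f := f) hx
    rwa [hf, Submodule.mem_bot] at this
  have := J.factor h (fun _ : Unit => a) (fun _ => b) (fun _ => ha) (fun _ => hb)
    (by simpa using hab) f hf0
  simp only [Finset.univ_unique, Finset.sum_singleton] at this
  exact ha' ((Submodule.smul_mem_iff _ hfb).1 this)

end Vale.Agent.P101
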