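import Vale.Agent.P101.Simple

/-! P101: consequences of the copy property and of a closed two-sided ideal. -/

namespace Vale.Agent.P101

open scoped CStarAlgebra

variable {B : Type*} [CStarAlgebra B]

theorem mem_cstarGen_of_mem {s : Set B} {x : B} (h : x ∈ s) : x ∈ cstarGen s :=
  StarSubalgebra.le_topologicalClosure _ (StarAlgebra.subset_adjoin ℂ s h)

/-- A closed star subalgebra of `cstarGen s` containing the generators is everything. -/
theorem cstarGen_induction {s : Set B} {T : StarSubalgebra ℂ (cstarGen s)}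
    (hT : IsClosed (T : Set (cstarGen s)))
    (hs : ∀ b (hb : b ∈ s), (⟨b, mem_cstarGen_of_mem hb⟩ : cstarGen s) ∈ T) (x : cstarGen s) :
    x ∈ T := by
  have h1 : IsClosed ((T.map (cstarGen s).subtype : StarSubalgebra ℂ B) : Set B) := by
    rw [StarSubalgebra.coe_map]
    exact (StarSubalgebra.isClosed_topologicalClosure _).isClosedEmbedding_subtypeVal.isClosedMap
      _ hT
  have h2 : StarAlgebra.adjoin ℂ s ≤ T.map (cstarGen s).subtype :=
    StarAlgebra.adjoin_le fun b hb => StarSubalgebra.mem_map.2 ⟨_, hs b hb, rfl⟩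
  obtain ⟨y, hy, hxy⟩ :=
    StarSubalgebra.mem_map.1 (StarSubalgebra.topologicalClosure_minimal h2 h1 x.2)
  rwa [← Subtype.ext (hxy : (y : B) = x)]

/-- An element commuting with the images of the generators and of their stars commutes with the
whole image. -/
theorem commute_map_of_gen {C : Type*} [CStarAlgebra C] {s : Set B}
    (φ : cstarGen s →⋆ₐ[ℂ] C) {y : C}
    (h : ∀ b (hb : b ∈ s), Commute y (φ ⟨b, mem_cstarGen_of_mem hb⟩) ∧
      Commute y (star (φ ⟨b, mem_cstarGen_of_mem hb⟩))) (x : cstarGen s) :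
    Commute y (φ x) := by
  have hmem : ∀ z : C, z ∈ StarSubalgebra.centralizer ℂ ({y} : Set C) ↔
      Commute y z ∧ Commute (star y) z := fun z => by
    simp [StarSubalgebra.mem_centralizer_iff, Commute, SemiconjBy]
  refine ((hmem _).1 (cstarGen_induction (T := (StarSubalgebra.centralizer ℂ {y}).comap φ) ?_
    (fun b hb => ?_) x)).1
  · exact (Set.isClosed_centralizer _).preimage (map_continuous φ)
  · refine (hmem _).2 ⟨(h b hb).1, ?_⟩
    simpa using (h b hb).2.star_star

theorem commute_of_mem_cstarGen {s : Set B} {y x : B} (hy : ∀ b ∈ s, Commute y b)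
    (hy' : ∀ b ∈ s, Commute y (star b)) (hx : x ∈ cstarGen s) : Commute y x :=
  commute_map_of_gen (cstarGen s).subtype (fun b hb => ⟨hy b hb, hy' b hb⟩) ⟨x, hx⟩

theorem mem_cstarGen_map {C : Type*} [CStarAlgebra C] {s : Set B}
    (φ : cstarGen s →⋆ₐ[ℂ] C) {G : Set C}
    (h : ∀ b (hb : b ∈ s), φ ⟨b, mem_cstarGen_of_mem hb⟩ ∈ G) (x : cstarGen s) :
    φ x ∈ cstarGen G :=
  cstarGen_induction (T := (cstarGen G).comap φ)
    ((StarSubalgebra.isClosed_topologicalClosure _).preimage (map_continuous φ))
    (fun b hb => mem_cstarGen_of_mem (h b hb)) x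

/-- Finitely many pairwise commuting copies of a finitely generated subalgebra, all commuting
with a given finite set. -/
theorem HasCopies.exists_copies (hB : HasCopies B) (F S : Finset B) (n : ℕ) :
    ∃ φ : Fin n → (cstarGen (F : Set B) →⋆ₐ[ℂ] B),
      (∀ i j, i ≠ j → ∀ x y, Commute (φ i x) (φ j y)) ∧ ∀ i x, ∀ b ∈ S, Commute (φ i x) b := by
  classical
  induction n with
  | zero => exact ⟨Fin.elim0, fun i => i.elim0, fun i => i.elim0⟩
  | succ n ih =>
    obtain ⟨φ, h1, h2⟩ := ih
    obtain ⟨ψ, hψ⟩ := hB F (S ∪ Finset.univ.biUnion fun i : Fin n =>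
      F.attach.image fun b : {b : B // b ∈ F} =>
        φ i (⟨b.1, mem_cstarGen_of_mem (Finset.mem_coe.2 b.2)⟩ : cstarGen (F : Set B)))
    have key : ∀ i x y, Commute (ψ y) (φ i x) := by
      intro i x y
      have hm : ∀ b (hb : b ∈ (F : Set B)) z, Commute (ψ z) (φ i ⟨b, mem_cstarGen_of_mem hb⟩) :=
        fun b hb z => hψ z _ (Finset.mem_union_right _ (Finset.mem_biUnion.2
          ⟨i, Finset.mem_univ i, Finset.mem_image.2 ⟨⟨b, hb⟩, Finset.mem_attach _ _, rfl⟩⟩))
      refine commute_map_of_gen (φ i) (fun b hb => ⟨hm b hb y, ?_⟩) x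
      simpa [← map_star] using (hm b hb (star y)).star_star
    refine ⟨Fin.cons ψ φ, fun i j hij x y => ?_, fun i x b hb => ?_⟩
    · induction i using Fin.cases with
      | zero =>
        induction j using Fin.cases with
        | zero => exact absurd rfl hij
        | succ j => simpa using key j y x
      | succ i =>
        induction j using Fin.cases with
        | zero => simpa using (key i x y).symm
        | succ j => simpa using h1 i j (fun e => hij (congrArg Fin.succ e)) x y
    · induction i using Fin.cases with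
      | zero => simpa using hψ x b (Finset.mem_union_left _ hb)
      | succ i => simpa using h2 i x b hb

/-- A maximal ideal containing all commutators gives a character. -/
theorem MaxIdeal.nonempty_character (J : MaxIdeal B)
    (hJ : ∀ x c : B, x * c - c * x ∈ J.toSubmodule) : Nonempty (B →⋆ₐ[ℂ] ℂ) := by
  choose r hr using fun z => J.central_scalar (z := z) (hJ z)
  have uniq : ∀ z t, z - t • (1 : B) ∈ J.toSubmodule → r z = t := by
    intro z t ht
    by_contra hne
    have h := J.toSubmodule.sub_mem ht (hr z)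
    rw [sub_sub_sub_cancel_left, ← sub_smul] at h
    exact J.one_notMem ((J.toSubmodule.smul_mem_iff (sub_ne_zero.2 hne)).1 h)
  refine ⟨⟨⟨⟨⟨⟨r, ?_⟩, ?_⟩, ?_, ?_⟩, ?_⟩, ?_⟩⟩
  · exact uniq _ _ (by simp)
  · intro a b
    refine uniq _ _ ?_
    have h : a * b - (r a * r b) • (1 : B) =
        (a - r a • (1 : B)) * b + r a • (b - r b • (1 : B)) := by
      rw [sub_mul, smul_one_mul, smul_sub, smul_smul]; abel
    rw [h]
    exact J.toSubmodule.add_mem (J.mul_right _ (hr a)) (J.toSubmodule.smul_mem _ (hr b))
  · exact uniq _ _ (by simp)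
  · intro a b
    refine uniq _ _ ?_
    have h : a + b - (r a + r b) • (1 : B) =
        (a - r a • (1 : B)) + (b - r b • (1 : B)) := by
      rw [add_smul]; abel
    rw [h]
    exact J.toSubmodule.add_mem (hr a) (hr b)
  · intro t
    exact uniq _ _ (by simp [Algebra.algebraMap_eq_smul_one])
  · intro a
    refine uniq _ _ ?_
    simpa using J.star_mem (hr a)

theorem exists_commutator_identity (h : IsEmpty (B →⋆ₐ[ℂ] ℂ)) :
    ∃ (m N : ℕ) (g : Fin m → B) (l : Fin N → Fin m) (a c d : Fin N → B),
      (∀ i, IsSelfAdjoint (g i)) ∧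
      ∑ t, a t * (g (l t) * c t - c t * g (l t)) * d t = 1 := by
  rcases exists_identity_or_maxIdeal {z : B | ∃ p q, z = p * q - q * p} with
    ⟨n, a, b, x, hx, hsum⟩ | ⟨J, hJ⟩
  · choose p q hpq using hx
    refine ⟨n + n, n + n, Fin.append (fun r => ((realPart (p r) : selfAdjoint B) : B))
      (fun r => ((imaginaryPart (p r) : selfAdjoint B) : B)), id,
      Fin.append a (fun r => Complex.I • a r), Fin.append q q, Fin.append b b, ?_, ?_⟩
    · intro i
      refine Fin.addCases (fun r => ?_) (fun r => ?_) i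
      · rw [Fin.append_left]; exact (realPart (p r)).2
      · rw [Fin.append_right]; exact (imaginaryPart (p r)).2
    · simp only [id, Fin.sum_univ_add, Fin.append_left, Fin.append_right]
      rw [← Finset.sum_add_distrib, ← hsum]
      refine Finset.sum_congr rfl fun r _ => ?_
      rw [hpq r]
      conv_rhs => rw [← realPart_add_I_smul_imaginaryPart (p r)]
      simp only [mul_sub, sub_mul, add_mul, mul_add, smul_mul_assoc, mul_smul_comm]
      abel
  · exact absurd (J.nonempty_character fun x c => hJ ⟨x, c, rfl⟩) (not_nonempty_iff.2 h)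

end Vale.Agent.P101
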