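import Mathlib

/-! P101: ordered products of slotwise commuting tuples. -/

namespace Vale.Agent.P101

variable {R : Type*} [Ring R] [StarRing R]

/-- Ordered product of a tuple. -/
def slotProd {N : ℕ} (X : Fin N → R) : R := (List.ofFn X).prod

@[simp] theorem slotProd_zero_index (X : Fin 0 → R) : slotProd X = 1 := by simp [slotProd]

theorem slotProd_succ {N : ℕ} (X : Fin (N + 1) → R) :
    slotProd X = X 0 * slotProd (fun i : Fin N => X i.succ) := by
  simp [slotProd, List.ofFn_succ]

theorem commute_slotProd {N : ℕ} {X : Fin N → R} {y : R} (h : ∀ i, Commute y (X i)) :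
    Commute y (slotProd X) := by
  refine Commute.list_prod_right _ _ fun x hx => ?_
  obtain ⟨i, rfl⟩ := List.mem_ofFn.mp hx
  exact h i

theorem slotProd_mul : ∀ {N : ℕ} {X Y : Fin N → R},
    (∀ i k, i ≠ k → Commute (X i) (Y k)) → slotProd X * slotProd Y = slotProd (X * Y)
  | 0, X, Y, _ => by simp
  | N + 1, X, Y, h => by
    have hc : Commute (Y 0) (slotProd fun i : Fin N => X i.succ) :=
      commute_slotProd fun i => (h _ _ (Fin.succ_ne_zero i)).symm
    have ih := slotProd_mul (X := fun i : Fin N => X i.succ) (Y := fun i : Fin N => Y i.succ)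
      fun i k hik => h _ _ fun e => hik (Fin.succ_injective _ e)
    simp only [slotProd_succ, Pi.mul_apply]
    rw [show (fun i : Fin N => X i.succ * Y i.succ) =
      (fun i : Fin N => X i.succ) * (fun i : Fin N => Y i.succ) from rfl, ← ih]
    simp only [mul_assoc]
    rw [← mul_assoc (slotProd fun i : Fin N => X i.succ) (Y 0), ← hc.eq, mul_assoc]

theorem slotProd_star : ∀ {N : ℕ} {X : Fin N → R},
    (∀ i k, i ≠ k → Commute (X i) (X k)) → star (slotProd X) = slotProd (star X)
  | 0, X, _ => by simp
  | N + 1, X, h => by
    have ih := slotProd_star (X := fun i : Fin N => X i.succ)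
      fun i k hik => h _ _ fun e => hik (Fin.succ_injective _ e)
    have hc : Commute (X 0) (slotProd fun i : Fin N => X i.succ) :=
      commute_slotProd fun i => h _ _ (Fin.succ_ne_zero i).symm
    rw [slotProd_succ, star_mul, ih, slotProd_succ]
    have := congrArg star hc.eq
    rw [star_mul, star_mul, ih] at this
    exact this

theorem slotProd_sum {ι : Type*} [Fintype ι] : ∀ {N : ℕ} (f : Fin N → ι → R),
    slotProd (fun i => ∑ l, f i l) = ∑ L : Fin N → ι, slotProd (fun i => f i (L i))
  | 0, f => by simp
  | N + 1, f => by
    rw [slotProd_succ, slotProd_sum (fun i : Fin N => f i.succ), Finset.sum_mul_sum,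
      ← Fintype.sum_prod_type', ← (Fin.consEquiv fun _ => ι).sum_comp]
    simp [slotProd_succ]

theorem slotProd_eq_zero {N : ℕ} {X : Fin N → R} (i : Fin N) (h : X i = 0) : slotProd X = 0 :=
  List.prod_eq_zero (List.mem_ofFn.mpr ⟨i, h⟩)

theorem slotProd_single : ∀ {N : ℕ} (k : Fin N) (x : R),
    slotProd (Function.update (1 : Fin N → R) k x) = x
  | 0, k, _ => k.elim0
  | N + 1, k, x => by
    induction k using Fin.cases with
    | zero => simp [slotProd_succ, slotProd, Function.update_of_ne (Fin.succ_ne_zero _)]
    | succ j =>
      have e : (fun i : Fin N => Function.update (1 : Fin (N + 1) → R) j.succ x i.succ) =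
          Function.update (1 : Fin N → R) j x := by
        funext i
        simp [Function.update_apply]
      rw [slotProd_succ, e, slotProd_single j x,
        Function.update_of_ne (Fin.succ_ne_zero j).symm, Pi.one_apply, one_mul]

theorem slotProd_split {N : ℕ} {X : Fin N → R} (k : Fin N)
    (h : ∀ i, i ≠ k → Commute (X k) (X i)) :
    slotProd X = X k * slotProd (Function.update X k 1) := by
  conv_rhs => rw [← slotProd_single k (X k)]
  rw [slotProd_mul]
  · congr 1
    funext i
    by_cases hi : i = k <;> simp [Function.update_apply, hi]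
  · intro i j hij
    by_cases hi : i = k
    · subst hi
      simpa [Function.update_apply, hij.symm] using h j hij.symm
    · simp [hi, Function.update_apply]

theorem commute_slotProd_left {N : ℕ} {X : Fin N → R} {y : R} (h : ∀ i, Commute (X i) y) :
    Commute (slotProd X) y :=
  (commute_slotProd fun i => (h i).symm).symm

section Order

variable [PartialOrder R] [StarOrderedRing R]

theorem slotProd_star_mul_self_nonneg {N : ℕ} {Z : Fin N → R}
    (h : ∀ i k, i ≠ k → Commute (Z i) (Z k))
    (h' : ∀ i k, i ≠ k → Commute (star (Z i)) (Z k)) :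
    0 ≤ slotProd (star Z * Z) := by
  rw [← slotProd_mul (X := star Z) h', ← slotProd_star h]
  exact star_mul_self_nonneg _

end Order

end Vale.Agent.P101
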