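import Mathlib

/-! P101: shared definitions. -/

namespace Vale.Agent.P101

variable {B : Type*} [CStarAlgebra B]

/-- The closed unital star subalgebra generated by a set. -/
noncomputable def cstarGen (s : Set B) : StarSubalgebra ℂ B :=
  (StarAlgebra.adjoin ℂ s).topologicalClosure

noncomputable instance cstarGen.instCStarAlgebra (s : Set B) : CStarAlgebra (cstarGen s) :=
  StarSubalgebra.cstarAlgebra _
    (h_closed := StarSubalgebra.isClosed_topologicalClosure (StarAlgebra.adjoin ℂ s))

/-- For all finite sets `F`, `S` there is a unital star homomorphism from the C*-algebra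
generated by `F` into `B` whose range commutes with `S`. -/
def HasCopies (B : Type*) [CStarAlgebra B] : Prop :=
  ∀ F S : Finset B, ∃ φ : cstarGen (F : Set B) →⋆ₐ[ℂ] B, ∀ x, ∀ b ∈ S, Commute (φ x) b

/-- `c`, `s` satisfy the Rørdam-Winter relations of the dimension drop algebra `I(2,3)`. -/
def DimDropPair (c s : B) : Prop :=
  c * c = 0 ∧ star s * s = 1 - star c * c - c * star c ∧ star c * c * s = s

/-- `u` is a square zero contraction, `β` is self-adjoint and fixed by `u* u`, and the elements
`a l* β² a l` sum to one. -/
structure Core (B : Type*) [CStarAlgebra B] where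
  m : ℕ
  u : B
  β : B
  a : Fin m → B
  sq : u * u = 0
  norm_le : ‖u‖ ≤ 1
  sa : IsSelfAdjoint β
  fix : star u * u * β = β
  sum_eq : ∑ l, star (a l) * β * β * a l = 1

end Vale.Agent.P101
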