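import Vale.Agent.P101.Defs

/-!
P101: the join of two commuting square-zero contractions.

For a square-zero contraction `c` put `p = |c|`, `q = |c*|`, `τ = q - p`, `W = c p`, `s = c*c + cc*`.
For commuting `c`, `u` the element `W_c + (1 - s) W_u + i √(1 - s) (c τ_u - τ_c u)` again squares to
zero, and `1 - s'` is at most twice the product `(1 - s_c) (1 - s_u)`.
-/

namespace Vale.Agent.P101

set_option linter.unusedSectionVars false

variable {B : Type*} [CStarAlgebra B] [PartialOrder B] [StarOrderedRing B]

noncomputable def sPart (c : B) : B := star c * c + c * star c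

noncomputable def absR (c : B) : B := CFC.sqrt (star c * c)

noncomputable def absL (c : B) : B := CFC.sqrt (c * star c)

noncomputable def coPart (c : B) : B := CFC.sqrt (1 - sPart c)

noncomputable def tauPart (c : B) : B := absL c - absR c

noncomputable def join (c u : B) : B :=
  c * absR c + (1 - sPart c) * (u * absR u) +
    (Complex.I) • (coPart c * (c * tauPart u - tauPart c * u))

/-- The element `σ - i(p + c* u)`. -/
noncomputable def liftV (c u : B) : B :=
  coPart c - (Complex.I) • (absR c + star c * u)

/-- Square zero contractions. -/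
def SqZero (c : B) : Prop := c * c = 0 ∧ ‖c‖ ≤ 1

variable {c u : B}

/-! ### Generalities -/

theorem commute_sqrt {a y : B} (h : Commute a y) : Commute (CFC.sqrt a) y :=
  h.cfcₙ_nnreal _

theorem star_sqrt (a : B) : star (CFC.sqrt a) = CFC.sqrt a :=
  (IsSelfAdjoint.of_nonneg (CFC.sqrt_nonneg a)).star_eq

theorem sqrt_mul_eq_zero {a b : B} (ha : 0 ≤ a) (h : a * b = 0) : CFC.sqrt a * b = 0 := by
  apply (CStarRing.star_mul_self_eq_zero_iff _).1
  calc star (CFC.sqrt a * b) * (CFC.sqrt a * b)
      = star b * (CFC.sqrt a * CFC.sqrt a) * b := by rw [star_mul, star_sqrt]; noncomm_ring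
    _ = 0 := by rw [CFC.sqrt_mul_sqrt_self a ha, mul_assoc, h, mul_zero]

theorem mul_sqrt_eq_zero {a b : B} (ha : 0 ≤ a) (h : b * a = 0) : b * CFC.sqrt a = 0 := by
  have h' : a * star b = 0 := by
    have := congrArg star h
    rwa [star_mul, star_zero, (IsSelfAdjoint.of_nonneg ha).star_eq] at this
  have := congrArg star (sqrt_mul_eq_zero ha h')
  rwa [star_mul, star_star, star_sqrt, star_zero] at this

theorem sqrt_fix {a x : B} (ha : 0 ≤ a) (h : a * x = x) : CFC.sqrt a * x = x := by
  set r := CFC.sqrt a with hr
  have hrr : r * r = a := CFC.sqrt_mul_sqrt_self a ha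
  set y := x - r * x with hy
  have h0 : y + r * y = 0 := by
    rw [hy, mul_sub, ← mul_assoc, hrr, h]; abel
  have h1 : star y * y + star y * r * y = 0 := by
    rw [mul_assoc, ← mul_add, h0, mul_zero]
  have h2 : star y * y = 0 :=
    ((add_eq_zero_iff_of_nonneg (star_mul_self_nonneg y)
      (star_left_conjugate_nonneg (CFC.sqrt_nonneg a) y)).1 h1).1
  have h3 : y = 0 := (CStarRing.star_mul_self_eq_zero_iff y).1 h2
  exact (sub_eq_zero.1 h3).symm

/-- Reorder a product of two elementary tensors. -/
theorem mm {a b x y : B} (h : Commute x b) : (a * x) * (b * y) = a * b * (x * y) := by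
  calc a * x * (b * y) = a * (x * b) * y := by noncomm_ring
    _ = a * (b * x) * y := by rw [h.eq]
    _ = a * b * (x * y) := by noncomm_ring

/-! ### Facts about one square-zero contraction -/

theorem SqZero.star_mul_star (hc : SqZero c) : star c * star c = 0 := by
  rw [← star_mul, hc.1, star_zero]

theorem isSelfAdjoint_sPart : star (sPart c) = sPart c := by
  simp [sPart]

theorem star_absR : star (absR c) = absR c := star_sqrt _
theorem star_absL : star (absL c) = absL c := star_sqrt _
theorem star_coPart : star (coPart c) = coPart c := star_sqrt _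

theorem star_tauPart : star (tauPart c) = tauPart c := by
  simp [tauPart, star_absR, star_absL]

theorem absR_mul_absR : absR c * absR c = star c * c :=
  CFC.sqrt_mul_sqrt_self _ (star_mul_self_nonneg c)

theorem absL_mul_absL : absL c * absL c = c * star c :=
  CFC.sqrt_mul_sqrt_self _ (mul_star_self_nonneg c)

theorem sPart_nonneg : 0 ≤ sPart c :=
  add_nonneg (star_mul_self_nonneg c) (mul_star_self_nonneg c)

theorem SqZero.absR_mul (hc : SqZero c) : absR c * c = 0 :=
  sqrt_mul_eq_zero (star_mul_self_nonneg c) (by rw [mul_assoc, hc.1, mul_zero])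

theorem SqZero.mul_absL (hc : SqZero c) : c * absL c = 0 :=
  mul_sqrt_eq_zero (mul_star_self_nonneg c) (by rw [← mul_assoc, hc.1, zero_mul])

theorem SqZero.absR_mul_absL (hc : SqZero c) : absR c * absL c = 0 := by
  apply sqrt_mul_eq_zero (star_mul_self_nonneg c)
  rw [mul_assoc, hc.mul_absL, mul_zero]

theorem SqZero.absL_mul_absR (hc : SqZero c) : absL c * absR c = 0 := by
  have := congrArg star hc.absR_mul_absL
  rwa [star_mul, star_absL, star_absR, star_zero] at this

theorem SqZero.star_mul_absR (hc : SqZero c) : star c * absR c = 0 := by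
  have := congrArg star hc.absR_mul
  rwa [star_mul, star_absR, star_zero] at this

theorem SqZero.absL_mul_star (hc : SqZero c) : absL c * star c = 0 := by
  have := congrArg star hc.mul_absL
  rwa [star_mul, star_absL, star_zero] at this

theorem SqZero.commute_sPart (hc : SqZero c) : Commute (sPart c) c := by
  unfold sPart Commute SemiconjBy
  calc (star c * c + c * star c) * c = star c * (c * c) + c * (star c * c) := by noncomm_ring
    _ = c * (star c * c) + c * c * star c := by rw [hc.1]; noncomm_ring
    _ = c * (star c * c + c * star c) := by noncomm_ring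

theorem SqZero.commute_sPart_star (hc : SqZero c) : Commute (sPart c) (star c) := by
  have h := hc.commute_sPart
  have := h.star_star
  rwa [isSelfAdjoint_sPart] at this

theorem SqZero.sqrt_sPart (hc : SqZero c) : CFC.sqrt (sPart c) = absL c + absR c := by
  apply CFC.sqrt_unique _ (add_nonneg (CFC.sqrt_nonneg _) (CFC.sqrt_nonneg _))
  rw [mul_add, add_mul, add_mul, hc.absR_mul_absL, hc.absL_mul_absR, absR_mul_absR, absL_mul_absL,
    sPart]
  abel

/-- `c |c| = |c*| c`. -/
theorem SqZero.mul_absR (hc : SqZero c) : c * absR c = absL c * c := by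
  have h := (commute_sqrt hc.commute_sPart).eq
  rw [hc.sqrt_sPart, add_mul, mul_add, hc.absR_mul, hc.mul_absL] at h
  simpa using h.symm

theorem SqZero.absR_mul_star (hc : SqZero c) : absR c * star c = star c * absL c := by
  have := congrArg star hc.mul_absR
  rwa [star_mul, star_mul, star_absR, star_absL] at this

theorem SqZero.tau_mul (hc : SqZero c) : tauPart c * c = c * absR c := by
  rw [tauPart, sub_mul, hc.absR_mul, sub_zero, hc.mul_absR]

theorem SqZero.mul_tau (hc : SqZero c) : c * tauPart c = -(c * absR c) := by
  rw [tauPart, mul_sub, hc.mul_absL, zero_sub]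

theorem SqZero.tau_sq (hc : SqZero c) : tauPart c * tauPart c = sPart c := by
  rw [tauPart, sub_mul, mul_sub, mul_sub, hc.absR_mul_absL, hc.absL_mul_absR, absR_mul_absR,
    absL_mul_absL, sPart]
  abel

theorem SqZero.absR_le_one (hc : SqZero c) : star c * c ≤ 1 := by
  rw [← CStarAlgebra.norm_le_one_iff_of_nonneg _ (star_mul_self_nonneg c),
    CStarRing.norm_star_mul_self]
  exact mul_le_one₀ hc.2 (norm_nonneg c) hc.2

theorem SqZero.absL_le_one (hc : SqZero c) : c * star c ≤ 1 := by
  rw [← CStarAlgebra.norm_le_one_iff_of_nonneg _ (mul_star_self_nonneg c),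
    CStarRing.norm_self_mul_star]
  exact mul_le_one₀ hc.2 (norm_nonneg c) hc.2

theorem sqZero_zero : SqZero (0 : B) := ⟨by simp, by simp⟩

theorem sPart_le_one (hc : SqZero c) : sPart c ≤ 1 := by
  have e : (1 - star c * c) * (1 - c * star c) = 1 - sPart c := by
    have h0 : star c * c * (c * star c) = 0 := by
      rw [mul_assoc, ← mul_assoc c c, hc.1, zero_mul, mul_zero]
    rw [sPart, sub_mul, one_mul, mul_sub, mul_one, h0]
    abel
  have hcomm : Commute (1 - star c * c) (1 - c * star c) := by
    have hPQ : Commute (star c * c) (c * star c) := by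
      unfold Commute SemiconjBy
      rw [mul_assoc, ← mul_assoc c c, hc.1, zero_mul, mul_zero, mul_assoc,
        ← mul_assoc (star c) (star c), hc.star_mul_star, zero_mul, mul_zero]
    exact ((Commute.one_left _).sub_left ((Commute.one_right _).sub_right hPQ))
  have := Commute.mul_nonneg (sub_nonneg.2 hc.absR_le_one) (sub_nonneg.2 hc.absL_le_one) hcomm
  rw [e] at this
  exact sub_nonneg.1 this

theorem SqZero.coPart_sq (hc : SqZero c) : coPart c * coPart c = 1 - sPart c :=
  CFC.sqrt_mul_sqrt_self _ (sub_nonneg.2 (sPart_le_one hc))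

/-! ### Elements commuting with `c` and `star c` -/

section comm

variable {y : B} (h : Commute c y) (h' : Commute (star c) y)

include h h'

theorem commute_sPart_of : Commute (sPart c) y :=
  (h'.mul_left h).add_left (h.mul_left h')

theorem commute_absR_of : Commute (absR c) y := commute_sqrt (h'.mul_left h)

theorem commute_absL_of : Commute (absL c) y := commute_sqrt (h.mul_left h')

theorem commute_tauPart_of : Commute (tauPart c) y :=
  (commute_absL_of h h').sub_left (commute_absR_of h h')

theorem commute_coPart_of : Commute (coPart c) y :=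
  commute_sqrt ((Commute.one_left y).sub_left (commute_sPart_of h h'))

end comm

theorem SqZero.commute_coPart (hc : SqZero c) : Commute (coPart c) c :=
  commute_sqrt ((Commute.one_left c).sub_left hc.commute_sPart)

theorem SqZero.commute_coPart_star (hc : SqZero c) : Commute (coPart c) (star c) :=
  commute_sqrt ((Commute.one_left _).sub_left hc.commute_sPart_star)

theorem SqZero.commute_coPart_absR (hc : SqZero c) : Commute (coPart c) (absR c) :=
  (commute_absR_of hc.commute_coPart.symm hc.commute_coPart_star.symm).symm

theorem SqZero.commute_coPart_absL (hc : SqZero c) : Commute (coPart c) (absL c) :=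
  (commute_absL_of hc.commute_coPart.symm hc.commute_coPart_star.symm).symm

theorem SqZero.commute_coPart_tau (hc : SqZero c) : Commute (coPart c) (tauPart c) :=
  hc.commute_coPart_absL.sub_right hc.commute_coPart_absR

theorem SqZero.commute_sPart_absR (hc : SqZero c) : Commute (sPart c) (absR c) :=
  (commute_absR_of hc.commute_sPart.symm hc.commute_sPart_star.symm).symm

/-- The `c` side and the `u` side. -/
structure Pair (c u : B) : Prop where
  hc : SqZero c
  hu : SqZero u
  cu : Commute c u
  cu' : Commute c (star u)

theorem Pair.c'u (H : Pair c u) : Commute (star c) u := by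
  simpa using H.cu'.star_star

theorem Pair.c'u' (H : Pair c u) : Commute (star c) (star u) := H.cu.star_star

theorem Pair.swap (H : Pair c u) : Pair u c :=
  ⟨H.hu, H.hc, H.cu.symm, H.c'u.symm⟩

/-- Whatever commutes with `c` and `star c`, hence all of the `u` side. -/
theorem Pair.right_c (H : Pair c u) :
    Commute c (absR u) ∧ Commute c (absL u) ∧ Commute c (tauPart u) :=
  ⟨(commute_absR_of H.cu.symm H.cu'.symm).symm, (commute_absL_of H.cu.symm H.cu'.symm).symm,
    (commute_tauPart_of H.cu.symm H.cu'.symm).symm⟩

theorem Pair.right_c' (H : Pair c u) :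
    Commute (star c) (absR u) ∧ Commute (star c) (absL u) ∧ Commute (star c) (tauPart u) :=
  ⟨(commute_absR_of H.c'u.symm H.c'u'.symm).symm, (commute_absL_of H.c'u.symm H.c'u'.symm).symm,
    (commute_tauPart_of H.c'u.symm H.c'u'.symm).symm⟩

/-- An element of the `c` side commutes with the whole `u` side. -/
structure CSide (a u : B) : Prop where
  cu : Commute a u
  cu' : Commute a (star u)

theorem CSide.p {a : B} (h : CSide a u) : Commute a (absR u) :=
  (commute_absR_of h.cu.symm h.cu'.symm).symm

theorem CSide.t {a : B} (h : CSide a u) : Commute a (tauPart u) :=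
  (commute_tauPart_of h.cu.symm h.cu'.symm).symm

theorem CSide.w {a : B} (h : CSide a u) : Commute a (u * absR u) := h.cu.mul_right h.p

theorem CSide.w' {a : B} (h : CSide a u) : Commute a (absR u * star u) := h.p.mul_right h.cu'

theorem Pair.side_c (H : Pair c u) : CSide c u := ⟨H.cu, H.cu'⟩

theorem Pair.side_c' (H : Pair c u) : CSide (star c) u := ⟨H.c'u, H.c'u'⟩

theorem Pair.side_p (H : Pair c u) : CSide (absR c) u :=
  ⟨commute_absR_of H.cu H.c'u, commute_absR_of H.cu' H.c'u'⟩

theorem Pair.side_q (H : Pair c u) : CSide (absL c) u :=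
  ⟨commute_absL_of H.cu H.c'u, commute_absL_of H.cu' H.c'u'⟩

theorem Pair.side_t (H : Pair c u) : CSide (tauPart c) u :=
  ⟨commute_tauPart_of H.cu H.c'u, commute_tauPart_of H.cu' H.c'u'⟩

theorem Pair.side_s (H : Pair c u) : CSide (sPart c) u :=
  ⟨commute_sPart_of H.cu H.c'u, commute_sPart_of H.cu' H.c'u'⟩

theorem Pair.side_n (H : Pair c u) : CSide (1 - sPart c) u :=
  ⟨(Commute.one_left u).sub_left H.side_s.cu, (Commute.one_left _).sub_left H.side_s.cu'⟩

theorem Pair.side_σ (H : Pair c u) : CSide (coPart c) u :=
  ⟨commute_coPart_of H.cu H.c'u, commute_coPart_of H.cu' H.c'u'⟩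

theorem Pair.side_W (H : Pair c u) : CSide (c * absR c) u :=
  ⟨H.cu.mul_left H.side_p.cu, H.cu'.mul_left H.side_p.cu'⟩

theorem Pair.side_W' (H : Pair c u) : CSide (absR c * star c) u :=
  ⟨H.side_p.cu.mul_left H.c'u, H.side_p.cu'.mul_left H.c'u'⟩

/-! ### The square of the join vanishes -/

theorem sq_add3 {a b d k : B} (haa : a * a = 0) (hbb : b * b = 0) (hab : a * b + b * a = k)
    (had : a * d + d * a = 0) (hbd : b * d + d * b = 0) (hdd : d * d = k) :
    (a + b + Complex.I • d) * (a + b + Complex.I • d) = 0 := by
  have e : (a + b + Complex.I • d) * (a + b + Complex.I • d) =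
      a * a + b * b + (a * b + b * a) + Complex.I • (a * d + d * a) +
        Complex.I • (b * d + d * b) - d * d := by
    simp only [mul_add, add_mul, smul_mul_assoc, mul_smul_comm, smul_smul, smul_add,
      Complex.I_mul_I, neg_smul, one_smul]
    abel
  rw [e, haa, hbb, hab, had, hbd, hdd]
  simp

theorem SqZero.W_sq (hc : SqZero c) : c * absR c * (c * absR c) = 0 := by
  rw [mul_assoc, ← mul_assoc (absR c) c, hc.absR_mul, zero_mul, mul_zero]

theorem SqZero.W_mul_c (hc : SqZero c) : c * absR c * c = 0 := by
  rw [mul_assoc, hc.absR_mul, mul_zero]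

theorem SqZero.c_mul_W (hc : SqZero c) : c * (c * absR c) = 0 := by
  rw [← mul_assoc, hc.1, zero_mul]

theorem SqZero.W_tau (hc : SqZero c) :
    c * absR c * tauPart c + tauPart c * (c * absR c) = 0 := by
  rw [← mul_assoc (tauPart c), hc.tau_mul, tauPart, mul_sub, mul_assoc c (absR c) (absL c),
    hc.absR_mul_absL]
  simp

theorem Pair.C_sq (H : Pair c u) :
    (c * tauPart u - tauPart c * u) * (c * tauPart u - tauPart c * u) =
      c * absR c * (u * absR u) + c * absR c * (u * absR u) := by
  rw [sub_mul, mul_sub, mul_sub, mm H.side_c.t.symm, mm H.side_t.t.symm, mm H.side_c.cu.symm,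
    mm H.side_t.cu.symm, H.hc.1, H.hu.1, H.hc.mul_tau, H.hc.tau_mul, H.hu.tau_mul, H.hu.mul_tau]
  noncomm_ring

theorem Pair.W_C (H : Pair c u) :
    c * absR c * (c * tauPart u - tauPart c * u) + (c * tauPart u - tauPart c * u) * (c * absR c)
      = 0 := by
  have e1 : c * tauPart u * (c * absR c) = c * (c * absR c) * tauPart u := by
    rw [mul_assoc, ← H.side_W.t.eq, ← mul_assoc]
  have e2 : tauPart c * u * (c * absR c) = tauPart c * (c * absR c) * u := by
    rw [mul_assoc, ← H.side_W.cu.eq, ← mul_assoc]
  rw [mul_sub, sub_mul, e1, e2, ← mul_assoc (c * absR c) c, H.hc.W_mul_c, H.hc.c_mul_W,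
    ← mul_assoc (c * absR c) (tauPart c)]
  calc 0 * tauPart u - c * absR c * tauPart c * u +
        (0 * tauPart u - tauPart c * (c * absR c) * u)
      = -((c * absR c * tauPart c + tauPart c * (c * absR c)) * u) := by noncomm_ring
    _ = 0 := by rw [H.hc.W_tau, zero_mul, neg_zero]

theorem Pair.V_C (H : Pair c u) :
    u * absR u * (c * tauPart u - tauPart c * u) + (c * tauPart u - tauPart c * u) * (u * absR u)
      = 0 := by
  have e1 : u * absR u * (c * tauPart u) = c * (u * absR u * tauPart u) := by
    rw [← mul_assoc, ← H.side_c.w.eq, mul_assoc]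
  have e2 : u * absR u * (tauPart c * u) = tauPart c * (u * absR u * u) := by
    rw [← mul_assoc, ← H.side_t.w.eq, mul_assoc]
  rw [mul_sub, sub_mul, e1, e2, H.hu.W_mul_c, mul_assoc c (tauPart u), mul_assoc (tauPart c) u,
    H.hu.c_mul_W]
  calc c * (u * absR u * tauPart u) - tauPart c * 0 +
        (c * (tauPart u * (u * absR u)) - tauPart c * 0)
      = c * (u * absR u * tauPart u + tauPart u * (u * absR u)) := by noncomm_ring
    _ = 0 := by rw [H.hu.W_tau, mul_zero]

theorem Pair.commute_σ_C (H : Pair c u) :
    Commute (coPart c) (c * tauPart u - tauPart c * u) :=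
  (H.hc.commute_coPart.mul_right H.side_σ.t).sub_right
    (H.hc.commute_coPart_tau.mul_right H.side_σ.cu)

theorem Pair.commute_σ_W (H : Pair c u) : Commute (coPart c) (c * absR c) :=
  H.hc.commute_coPart.mul_right H.hc.commute_coPart_absR

theorem Pair.commute_n_W (H : Pair c u) : Commute (1 - sPart c) (c * absR c) := by
  rw [← H.hc.coPart_sq]; exact H.commute_σ_W.mul_left H.commute_σ_W

theorem Pair.commute_n_C (H : Pair c u) :
    Commute (1 - sPart c) (c * tauPart u - tauPart c * u) := by
  rw [← H.hc.coPart_sq]; exact H.commute_σ_C.mul_left H.commute_σ_C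

theorem Pair.join_mul_join (H : Pair c u) : join c u * join c u = 0 := by
  unfold join
  set W := c * absR c with hW
  set V := u * absR u with hV
  set C := c * tauPart u - tauPart c * u with hC
  set n := 1 - sPart c with hn
  set σ := coPart c with hσ
  have σσ : σ * σ = n := H.hc.coPart_sq
  have nV : Commute n V := H.side_n.w
  have σV : Commute σ V := H.side_σ.w
  have nW : Commute n W := H.commute_n_W
  have WV : Commute W V := H.side_W.w
  have σW : Commute σ W := H.commute_σ_W
  have σC : Commute σ C := H.commute_σ_C
  have nC : Commute n C := H.commute_n_C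
  have nσ : Commute n σ := by rw [← σσ]; exact (Commute.refl σ).mul_left (Commute.refl σ)
  apply sq_add3 (k := n * (W * V) + n * (W * V))
  · exact H.hc.W_sq
  · rw [mm nV.symm, H.hu.W_sq, mul_zero]
  · congr 1
    · rw [← mul_assoc, ← nW.eq, mul_assoc]
    · rw [mul_assoc, ← WV.eq]
  · calc W * (σ * C) + σ * C * W = σ * (W * C + C * W) := by
          rw [← mul_assoc W, ← σW.eq]; noncomm_ring
      _ = 0 := by rw [hW, hC, H.W_C, mul_zero]
  · calc n * V * (σ * C) + σ * C * (n * V) = n * σ * (V * C + C * V) := by
          rw [mm σV.symm, mm nC.symm, ← nσ.eq]; noncomm_ring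
      _ = 0 := by rw [hV, hC, H.V_C, mul_zero]
  · rw [mm σC.symm, σσ, hC, H.C_sq, mul_add]

/-! ### The anticommutator of the join with its adjoint -/

theorem anti_add3 (a b d : B) :
    star (a + b + Complex.I • d) * (a + b + Complex.I • d) +
      (a + b + Complex.I • d) * star (a + b + Complex.I • d) =
    (star a * a + a * star a) + (star b * b + b * star b) + (star d * d + d * star d) +
      ((star a * b + b * star a) + (star b * a + a * star b)) +
      Complex.I • ((star a * d + d * star a) - (star d * a + a * star d)) +
      Complex.I • ((star b * d + d * star b) - (star d * b + b * star d)) := by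
  simp only [star_add, star_smul, Complex.star_def, Complex.conj_I, mul_add, add_mul,
    smul_mul_assoc, mul_smul_comm, smul_smul, smul_add, smul_sub, neg_mul, mul_neg,
    Complex.I_mul_I, neg_neg]
  match_scalars <;> simp

theorem SqZero.W_W (hc : SqZero c) :
    star (c * absR c) * (c * absR c) + c * absR c * star (c * absR c) =
      sPart c * sPart c := by
  have h0 : star c * c * (c * star c) = 0 := by
    rw [mul_assoc, ← mul_assoc c c, hc.1, zero_mul, mul_zero]
  have h1 : c * star c * (star c * c) = 0 := by
    rw [mul_assoc, ← mul_assoc (star c) (star c), hc.star_mul_star, zero_mul, mul_zero]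
  have hpP : absR c * (star c * c) = star c * c * absR c := by
    rw [← absR_mul_absR, mul_assoc]
  rw [star_mul, star_absR]
  calc absR c * star c * (c * absR c) + c * absR c * (absR c * star c)
      = absR c * (star c * c) * absR c + c * (absR c * absR c) * star c := by noncomm_ring
    _ = star c * c * (absR c * absR c) + c * (star c * c) * star c := by
          rw [hpP, mul_assoc (star c * c), absR_mul_absR]
    _ = (star c * c + c * star c) * (star c * c + c * star c) := by
          rw [absR_mul_absR, mul_add, add_mul, add_mul, h0, h1]; noncomm_ring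
    _ = _ := rfl

/-- `W* c + c W*` is self-adjoint. -/
theorem SqZero.W_c (hc : SqZero c) :
    star (c * absR c) * c + c * star (c * absR c) =
      absR c * absR c * absR c + absL c * absL c * absL c := by
  rw [star_mul, star_absR, ← mul_assoc c (absR c), hc.mul_absR, mul_assoc, mul_assoc,
    ← absR_mul_absR, ← absL_mul_absL]
  noncomm_ring

theorem SqZero.W_c' (hc : SqZero c) :
    star c * (c * absR c) + c * absR c * star c =
      absR c * absR c * absR c + absL c * absL c * absL c := by
  have := congrArg star hc.W_c
  simp only [star_add, star_mul, star_star, star_absR, star_absL] at this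
  rw [this]
  noncomm_ring

theorem SqZero.W_tau' (hc : SqZero c) :
    star (c * absR c) * tauPart c + tauPart c * star (c * absR c) = 0 := by
  have := congrArg star hc.W_tau
  rwa [star_add, star_mul (c * absR c), star_mul (tauPart c), star_tauPart, star_zero, add_comm]
    at this

theorem Pair.anti_W_C (H : Pair c u) :
    star (c * absR c) * (c * tauPart u - tauPart c * u) +
        (c * tauPart u - tauPart c * u) * star (c * absR c) =
      (absR c * absR c * absR c + absL c * absL c * absL c) * tauPart u := by
  have hs : CSide (star (c * absR c)) u := by rw [star_mul, star_absR]; exact H.side_W'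
  rw [← H.hc.W_c, mul_sub, sub_mul, mul_assoc c (tauPart u), ← hs.t.eq,
    mul_assoc (tauPart c) u, ← hs.cu.eq]
  calc _ = (star (c * absR c) * c + c * star (c * absR c)) * tauPart u -
        (star (c * absR c) * tauPart c + tauPart c * star (c * absR c)) * u := by noncomm_ring
    _ = _ := by rw [H.hc.W_tau', zero_mul, sub_zero]

theorem Pair.anti_V_C (H : Pair c u) :
    star (u * absR u) * (c * tauPart u - tauPart c * u) +
        (c * tauPart u - tauPart c * u) * star (u * absR u) =
      -(tauPart c * (absR u * absR u * absR u + absL u * absL u * absL u)) := by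
  have hs : star (u * absR u) = absR u * star u := by rw [star_mul, star_absR]
  rw [← H.hu.W_c, hs, mul_sub, sub_mul, ← mul_assoc (absR u * star u) c, ← H.side_c.w'.eq,
    ← mul_assoc (absR u * star u) (tauPart c), ← H.side_t.w'.eq]
  calc _ = c * (absR u * star u * tauPart u + tauPart u * (absR u * star u)) -
        tauPart c * (absR u * star u * u + u * (absR u * star u)) := by noncomm_ring
    _ = _ := by
      have h0 := H.hu.W_tau'
      rw [hs] at h0
      rw [h0, mul_zero, zero_sub]

theorem Pair.anti_C_C (H : Pair c u) :
    star (c * tauPart u - tauPart c * u) * (c * tauPart u - tauPart c * u) +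
        (c * tauPart u - tauPart c * u) * star (c * tauPart u - tauPart c * u) =
      (sPart c * sPart u + sPart c * sPart u) -
        (star (c * absR c) * (u * absR u) + star (c * absR c) * (u * absR u) +
          (star (u * absR u) * (c * absR c) + star (u * absR u) * (c * absR c))) := by
  have hC : star (c * tauPart u - tauPart c * u) =
      star c * tauPart u - tauPart c * star u := by
    rw [star_sub, star_mul, star_mul, star_tauPart, star_tauPart, H.side_c'.t.eq, H.side_t.cu'.eq]
  have f1 : star c * tauPart c = star (c * absR c) := by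
    rw [← H.hc.tau_mul, star_mul, star_tauPart]
  have f2 : tauPart c * star c = -star (c * absR c) := by
    rw [← star_neg, ← H.hc.mul_tau, star_mul, star_tauPart]
  have f3 : star u * tauPart u = star (u * absR u) := by
    rw [← H.hu.tau_mul, star_mul, star_tauPart]
  have f4 : tauPart u * star u = -star (u * absR u) := by
    rw [← star_neg, ← H.hu.mul_tau, star_mul, star_tauPart]
  have hsw : star (u * absR u) * (c * absR c) = c * absR c * star (u * absR u) := by
    rw [star_mul, star_absR, H.side_W.w'.eq]
  rw [hC, sub_mul, mul_sub, mul_sub, sub_mul, mul_sub, mul_sub]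
  rw [mm H.side_c.t.symm, mm H.side_t.t.symm, mm H.side_c.cu'.symm, mm H.side_t.cu'.symm,
    mm H.side_c'.t.symm, mm H.side_t.t.symm, mm H.side_c'.cu.symm, mm H.side_t.cu.symm]
  rw [H.hc.tau_sq, H.hu.tau_sq, f1, f2, f3, f4, H.hc.mul_tau, H.hc.tau_mul, H.hu.mul_tau,
    H.hu.tau_mul, hsw]
  simp only [sPart]
  noncomm_ring

theorem SqZero.star_sigma_smul (a : B) : star (coPart c * a) = star a * coPart c := by
  rw [star_mul, star_coPart]

theorem Pair.sPart_join (H : Pair c u) :
    sPart (join c u) = (sPart c + (1 - sPart c) * sPart u) *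
      (sPart c + (1 - sPart c) * sPart u) := by
  conv_lhs => rw [sPart]; unfold join
  rw [anti_add3]
  set W := c * absR c with hW
  set V := u * absR u with hV
  set C := c * tauPart u - tauPart c * u with hC
  set s := sPart c with hs
  set t := sPart u with ht
  set σ := coPart c with hσ
  set n := 1 - s with hn
  have σσ : σ * σ = n := H.hc.coPart_sq
  have n' : star n = n := by rw [hn, star_sub, star_one, hs, isSelfAdjoint_sPart]
  have σ' : star σ = σ := star_coPart
  have nV : Commute n V := H.side_n.w
  have nV' : Commute n (star V) := by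
    have := nV.star_star; rwa [n'] at this
  have σV : Commute σ V := H.side_σ.w
  have σV' : Commute σ (star V) := by
    have := σV.star_star; rwa [σ'] at this
  have nW : Commute n W := H.commute_n_W
  have nW' : Commute n (star W) := by
    have := nW.star_star; rwa [n'] at this
  have σW : Commute σ W := H.commute_σ_W
  have σW' : Commute σ (star W) := by
    have := σW.star_star; rwa [σ'] at this
  have σC : Commute σ C := H.commute_σ_C
  have σC' : Commute σ (star C) := by
    have := σC.star_star; rwa [σ'] at this
  have nC : Commute n C := H.commute_n_C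
  have nC' : Commute n (star C) := by
    have := nC.star_star; rwa [n'] at this
  have nσ : Commute n σ := by rw [← σσ]; exact (Commute.refl σ).mul_left (Commute.refl σ)
  have nt : Commute n t := by
    rw [ht, sPart]
    exact (H.side_n.cu'.mul_right H.side_n.cu).add_right (H.side_n.cu.mul_right H.side_n.cu')
  have ns : Commute n s := by rw [hn]; exact (Commute.one_left s).sub_left (Commute.refl s)
  have st : Commute s t := by
    rw [ht, sPart]
    exact (H.side_s.cu'.mul_right H.side_s.cu).add_right (H.side_s.cu.mul_right H.side_s.cu')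
  have hWV : Commute W V := H.side_W.w
  have hWV' : Commute W (star V) := by
    rw [hV, star_mul, star_absR]; exact H.side_W.w'
  have hVW' : Commute V (star W) := by
    simpa using hWV'.star_star.symm
  -- the three squares
  have e1 : star W * W + W * star W = s * s := H.hc.W_W
  have e2 : star (n * V) * (n * V) + n * V * star (n * V) = n * n * (t * t) := by
    rw [star_mul, n', ← nV'.eq, mm nV'.symm, mm nV.symm, ← mul_add, hV, H.hu.W_W]
  have e3 : star (σ * C) * (σ * C) + σ * C * star (σ * C) = n * (star C * C + C * star C) := by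
    rw [star_mul, σ', ← σC'.eq, mm σC'.symm, mm σC.symm, σσ, ← mul_add]
  -- mixed terms
  have e4 : star W * (n * V) + n * V * star W = n * (star W * V) + n * (star W * V) := by
    congr 1
    · rw [← mul_assoc, ← nW'.eq, mul_assoc]
    · rw [mul_assoc, hVW'.eq]
  have e5 : star (n * V) * W + W * star (n * V) = n * (star V * W) + n * (star V * W) := by
    rw [star_mul, n', ← nV'.eq]
    congr 1
    · rw [mul_assoc]
    · rw [← mul_assoc, ← nW.eq, mul_assoc, hWV'.eq]
  have e6 : (star W * (σ * C) + σ * C * star W) - (star (σ * C) * W + W * star (σ * C)) = 0 := by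
    have a1 : star W * C + C * star W = _ := H.anti_W_C
    have a2 : star W * (σ * C) + σ * C * star W = σ * (star W * C + C * star W) := by
      rw [← mul_assoc (star W), ← σW'.eq]; noncomm_ring
    have a3 : star (σ * C) * W + W * star (σ * C) = σ * star (star W * C + C * star W) := by
      rw [star_mul σ, σ', ← σC'.eq, ← mul_assoc W, ← σW.eq, star_add, star_mul (star W),
        star_mul C, star_star]
      noncomm_ring
    have hsa : star (star W * C + C * star W) = star W * C + C * star W := by
      rw [a1]
      have h3 : Commute (absR c * absR c * absR c + absL c * absL c * absL c) (tauPart u) :=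
        ((H.side_p.t.mul_left H.side_p.t).mul_left H.side_p.t).add_left
          ((H.side_q.t.mul_left H.side_q.t).mul_left H.side_q.t)
      simp only [star_mul, star_add, star_absR, star_absL, star_tauPart]
      rw [← mul_assoc (absR c) (absR c), ← mul_assoc (absL c) (absL c), h3.eq]
    rw [a2, a3, hsa, sub_self]
  have e7 : (star (n * V) * (σ * C) + σ * C * star (n * V)) -
      (star (σ * C) * (n * V) + n * V * star (σ * C)) = 0 := by
    have a1 : star V * C + C * star V = _ := H.anti_V_C
    have a2 : star (n * V) * (σ * C) + σ * C * star (n * V) =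
        n * σ * (star V * C + C * star V) := by
      rw [star_mul n, n', ← nV'.eq, mm σV'.symm, mm nC.symm, ← nσ.eq]; noncomm_ring
    have a3 : star (σ * C) * (n * V) + n * V * star (σ * C) =
        n * σ * star (star V * C + C * star V) := by
      rw [star_mul σ, σ', ← σC'.eq, mm nC'.symm, mm σV.symm, ← nσ.eq, star_add,
        star_mul (star V), star_mul C, star_star]
      noncomm_ring
    have hsa : star (star V * C + C * star V) = star V * C + C * star V := by
      rw [a1]
      have h3 : Commute (tauPart c) (absR u * absR u * absR u + absL u * absL u * absL u) := by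
        have hl : Commute (tauPart c) (absL u) :=
          (commute_absL_of H.side_t.cu.symm H.side_t.cu'.symm).symm
        exact ((H.side_t.p.mul_right H.side_t.p).mul_right H.side_t.p).add_right
          ((hl.mul_right hl).mul_right hl)
      simp only [star_neg, star_mul, star_add, star_absR, star_absL, star_tauPart]
      rw [← mul_assoc (absR u) (absR u), ← mul_assoc (absL u) (absL u), h3.eq]
    rw [a2, a3, hsa, sub_self]
  rw [e1, e2, e3, e4, e5, e6, e7, hC, H.anti_C_C]
  simp only [smul_zero, add_zero, ← hW, ← hV, ← hs, ← ht]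
  calc s * s + n * n * (t * t) +
        n * (s * t + s * t - (star W * V + star W * V + (star V * W + star V * W))) +
        (n * (star W * V) + n * (star W * V) + (n * (star V * W) + n * (star V * W)))
      = s * s + n * n * (t * t) + (n * (s * t) + n * (s * t)) := by noncomm_ring
    _ = s * s + n * t * (n * t) + (n * t * s + s * (n * t)) := by
        have a : s * (n * t) = n * (s * t) := by rw [← mul_assoc, ← ns.eq, mul_assoc]
        have b : n * t * s = n * (s * t) := by rw [mul_assoc, ← st.eq]
        rw [mm nt.symm, a, b]
    _ = (s + n * t) * (s + n * t) := by noncomm_ring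

theorem Pair.one_sub_sPart_join (H : Pair c u) :
    1 - sPart (join c u) = (1 - sPart c) * (1 - sPart u) *
      (1 + (sPart c + (1 - sPart c) * sPart u)) := by
  rw [H.sPart_join]
  have : (1 - sPart c) * (1 - sPart u) = 1 - (sPart c + (1 - sPart c) * sPart u) := by noncomm_ring
  rw [this]
  noncomm_ring

theorem Pair.side_commute (H : Pair c u) : Commute (sPart c) (sPart u) :=
  (H.side_s.cu'.mul_right H.side_s.cu).add_right (H.side_s.cu.mul_right H.side_s.cu')

theorem Pair.X_bounds (H : Pair c u) :
    0 ≤ (1 - sPart c) * (1 - sPart u) ∧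
      0 ≤ sPart c + (1 - sPart c) * sPart u ∧
      sPart c + (1 - sPart c) * sPart u ≤ 1 := by
  have hn : (0 : B) ≤ 1 - sPart c := sub_nonneg.2 (sPart_le_one H.hc)
  have hm : (0 : B) ≤ 1 - sPart u := sub_nonneg.2 (sPart_le_one H.hu)
  have hc1 : Commute (1 - sPart c) (sPart u) :=
    (Commute.one_left _).sub_left H.side_commute
  have hc2 : Commute (1 - sPart c) (1 - sPart u) := (Commute.one_right _).sub_right hc1
  have h1 := Commute.mul_nonneg hn hm hc2
  refine ⟨h1, add_nonneg sPart_nonneg (Commute.mul_nonneg hn sPart_nonneg hc1), ?_⟩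
  rw [← sub_nonneg]
  calc (0 : B) ≤ (1 - sPart c) * (1 - sPart u) := h1
    _ = 1 - (sPart c + (1 - sPart c) * sPart u) := by noncomm_ring

theorem join_sqZero (hc : SqZero c) (hu : SqZero u) (h : Commute c u) (h' : Commute c (star u)) :
    SqZero (join c u) := by
  have H : Pair c u := ⟨hc, hu, h, h'⟩
  refine ⟨H.join_mul_join, ?_⟩
  obtain ⟨h1, h2, h3⟩ := H.X_bounds
  have hle : star (join c u) * join c u ≤ 1 := by
    refine le_trans (le_add_of_nonneg_right (mul_star_self_nonneg (join c u))) ?_
    rw [← sub_nonneg]
    change (0 : B) ≤ 1 - sPart (join c u)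
    rw [H.one_sub_sPart_join]
    have hX : (1 - sPart c) * (1 - sPart u) = 1 - (sPart c + (1 - sPart c) * sPart u) := by
      noncomm_ring
    refine Commute.mul_nonneg h1 (add_nonneg zero_le_one h2) ?_
    rw [hX]
    exact ((Commute.one_left _).sub_left ((Commute.one_right _).add_right (Commute.refl _)))
  rw [← CStarAlgebra.norm_le_one_iff_of_nonneg _ (star_mul_self_nonneg _),
    CStarRing.norm_star_mul_self] at hle
  nlinarith [norm_nonneg (join c u)]

theorem one_sub_sPart_join_le (hc : SqZero c) (hu : SqZero u) (h : Commute c u)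
    (h' : Commute c (star u)) :
    1 - sPart (join c u) ≤ 2 * ((1 - sPart c) * (1 - sPart u)) := by
  have H : Pair c u := ⟨hc, hu, h, h'⟩
  obtain ⟨h1, h2, h3⟩ := H.X_bounds
  set X := sPart c + (1 - sPart c) * sPart u with hX
  have hm : (1 - sPart c) * (1 - sPart u) = 1 - X := by rw [hX]; noncomm_ring
  rw [H.one_sub_sPart_join, ← hX, hm, ← sub_nonneg]
  have hsq := star_mul_self_nonneg (1 - X)
  rw [(IsSelfAdjoint.of_nonneg (sub_nonneg.2 h3)).star_eq] at hsq
  calc (0 : B) ≤ (1 - X) * (1 - X) := hsq
    _ = 2 * (1 - X) - (1 - X) * (1 + X) := by noncomm_ring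

theorem commute_join (_hc : SqZero c) (_hu : SqZero u) {y : B} (h1 : Commute c y)
    (h2 : Commute (star c) y) (h3 : Commute u y) (h4 : Commute (star u) y) :
    Commute (join c u) y ∧ Commute (star (join c u)) y ∧ Commute (liftV c u) y := by
  have key : ∀ z : B, Commute c z → Commute (star c) z → Commute u z → Commute (star u) z →
      Commute (join c u) z := by
    intro z a b d e
    refine ((a.mul_left (commute_absR_of a b)).add_left ?_).add_left ?_
    · exact ((Commute.one_left z).sub_left (commute_sPart_of a b)).mul_left
        (d.mul_left (commute_absR_of d e))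
    · exact ((commute_coPart_of a b).mul_left ((a.mul_left (commute_tauPart_of d e)).sub_left
        ((commute_tauPart_of a b).mul_left d))).smul_left _
  refine ⟨key y h1 h2 h3 h4, ?_, ?_⟩
  · have a := h2.star_star; rw [star_star] at a
    have b := h1.star_star
    have d := h4.star_star; rw [star_star] at d
    have e := h3.star_star
    simpa using (key (star y) a b d e).star_star
  · exact (commute_coPart_of h1 h2).sub_left
      (((commute_absR_of h1 h2).add_left (h2.mul_left h3)).smul_left _)

/-! ### The lift -/

/-- Facts about `x` with `star u * u * x = x`. -/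
structure Low (u x : B) : Prop where
  hu : SqZero u
  hx : star u * u * x = x

theorem Low.p {x : B} (L : Low u x) : absR u * x = x := sqrt_fix (star_mul_self_nonneg u) L.hx

theorem Low.u' {x : B} (L : Low u x) : star u * x = 0 := by
  rw [← L.hx, ← mul_assoc, ← mul_assoc, L.hu.star_mul_star, zero_mul, zero_mul]

theorem Low.q {x : B} (L : Low u x) : absL u * x = 0 := by
  rw [← L.hx, ← mul_assoc, ← mul_assoc, L.hu.absL_mul_star, zero_mul, zero_mul]

theorem Low.t {x : B} (L : Low u x) : tauPart u * x = -x := by
  rw [tauPart, sub_mul, L.q, L.p, zero_sub]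

theorem Low.w {x : B} (L : Low u x) : u * absR u * x = u * x := by rw [mul_assoc, L.p]

theorem Low.w' {x : B} (L : Low u x) : absR u * star u * x = 0 := by
  rw [mul_assoc, L.u', mul_zero]

theorem Low.tu {x : B} (L : Low u x) : tauPart u * (u * x) = u * x := by
  rw [← mul_assoc, L.hu.tau_mul, L.w]

theorem Low.wu {x : B} (L : Low u x) : u * absR u * (u * x) = 0 := by
  rw [← mul_assoc, L.hu.W_mul_c, zero_mul]

theorem Low.uu {x : B} (L : Low u x) : u * (u * x) = 0 := by
  rw [← mul_assoc, L.hu.1, zero_mul]

theorem Low.u'u {x : B} (L : Low u x) : star u * (u * x) = x := by rw [← mul_assoc, L.hx]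

theorem Low.w'u {x : B} (L : Low u x) : absR u * star u * (u * x) = x := by
  rw [mul_assoc, L.u'u, L.p]

theorem star_join (H : Pair c u) :
    star (join c u) = absR c * star c + (1 - sPart c) * (absR u * star u) -
      Complex.I • (coPart c * (star c * tauPart u - tauPart c * star u)) := by
  have n' : star (1 - sPart c) = 1 - sPart c := by rw [star_sub, star_one, isSelfAdjoint_sPart]
  have hC : star (c * tauPart u - tauPart c * u) =
      star c * tauPart u - tauPart c * star u := by
    rw [star_sub, star_mul, star_mul, star_tauPart, star_tauPart, H.side_c'.t.eq, H.side_t.cu'.eq]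
  have σC : Commute (coPart c) (star c * tauPart u - tauPart c * star u) :=
    (H.hc.commute_coPart_star.mul_right H.side_σ.t).sub_right
      (H.hc.commute_coPart_tau.mul_right H.side_σ.cu')
  rw [join, star_add, star_add, star_mul, star_absR, star_mul, star_mul, star_absR, n',
    star_smul, star_mul, star_coPart, hC, ← σC.eq, Complex.star_def, Complex.conj_I,
    H.side_n.w'.eq, neg_smul]
  abel

/-- Action of the join on a `c`-side multiple of `x`. -/
theorem Pair.join_act (_H : Pair c u) {x a : B} (L : Low u x) (ha : CSide a u) :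
    join c u * (a * x) = (c * absR c - Complex.I • (coPart c * c)) * a * x +
      ((1 - sPart c) - Complex.I • (coPart c * tauPart c)) * a * (u * x) := by
  have e1 : u * absR u * (a * x) = a * (u * x) := by
    rw [← mul_assoc, ← ha.w.eq, mul_assoc, L.w]
  have e2 : tauPart u * (a * x) = -(a * x) := by
    rw [← mul_assoc, ← ha.t.eq, mul_assoc, L.t, mul_neg]
  have e3 : u * (a * x) = a * (u * x) := by rw [← mul_assoc, ← ha.cu.eq, mul_assoc]
  simp only [join, add_mul, sub_mul, smul_mul_assoc, e1,
    mul_assoc (coPart c), mul_assoc c (tauPart u), mul_assoc (tauPart c) u, e2, e3, mul_sub,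
    mul_neg, smul_sub, smul_neg, mul_assoc]
  abel

theorem Pair.join_act' (_H : Pair c u) {x a : B} (L : Low u x) (ha : CSide a u) :
    join c u * (a * (u * x)) = (c * absR c + Complex.I • (coPart c * c)) * a * (u * x) := by
  have e1 : u * (absR u * (a * (u * x))) = 0 := by
    rw [← mul_assoc u (absR u), ← mul_assoc, ← ha.w.eq, mul_assoc, L.wu, mul_zero]
  have e2 : tauPart u * (a * (u * x)) = a * (u * x) := by
    rw [← mul_assoc, ← ha.t.eq, mul_assoc, L.tu]
  have e3 : u * (a * (u * x)) = 0 := by
    rw [← mul_assoc, ← ha.cu.eq, mul_assoc, L.uu, mul_zero]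
  simp only [join, add_mul, sub_mul, smul_mul_assoc, mul_assoc, e1, e2, e3, one_mul,
    mul_zero, sub_zero, add_zero]

theorem Pair.star_join_act (H : Pair c u) {x a : B} (L : Low u x) (ha : CSide a u) :
    star (join c u) * (a * x) =
      (absR c * star c + Complex.I • (coPart c * star c)) * a * x := by
  have e2 : tauPart u * (a * x) = -(a * x) := by
    rw [← mul_assoc, ← ha.t.eq, mul_assoc, L.t, mul_neg]
  have e3 : star u * (a * x) = 0 := by rw [← mul_assoc, ← ha.cu'.eq, mul_assoc, L.u', mul_zero]
  simp only [star_join H, add_mul, sub_mul, smul_mul_assoc, mul_assoc, e2, e3, one_mul,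
    mul_neg, mul_zero, sub_zero, add_zero, smul_neg, sub_neg_eq_add]

theorem Pair.star_join_act' (H : Pair c u) {x a : B} (L : Low u x) (ha : CSide a u) :
    star (join c u) * (a * (u * x)) =
      (absR c * star c - Complex.I • (coPart c * star c)) * a * (u * x) +
        ((1 - sPart c) + Complex.I • (coPart c * tauPart c)) * a * x := by
  have e1 : absR u * star u * (a * (u * x)) = a * x := by
    rw [← mul_assoc, ← ha.w'.eq, mul_assoc, L.w'u]
  have e2 : tauPart u * (a * (u * x)) = a * (u * x) := by
    rw [← mul_assoc, ← ha.t.eq, mul_assoc, L.tu]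
  have e3 : star u * (a * (u * x)) = a * x := by rw [← mul_assoc, ← ha.cu'.eq, mul_assoc, L.u'u]
  simp only [star_join H, add_mul, sub_mul, smul_mul_assoc, e1,
    mul_assoc (coPart c), mul_assoc (star c) (tauPart u), mul_assoc (tauPart c) (star u), e2, e3,
    mul_sub, smul_sub, mul_assoc]
  abel

theorem join_liftV (hc : SqZero c) (hu : SqZero u) (h : Commute c u) (h' : Commute c (star u))
    {x : B} (hx : star u * u * x = x) :
    star (join c u) * join c u * (liftV c u * x) = liftV c u * x := by
  have H : Pair c u := ⟨hc, hu, h, h'⟩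
  have L : Low u x := ⟨hu, hx⟩
  have hV : liftV c u * x =
      (coPart c - Complex.I • absR c) * x + (-(Complex.I • star c)) * (u * x) := by
    simp only [liftV, sub_mul, add_mul, smul_mul_assoc, smul_add, neg_mul, mul_assoc]
    abel
  have s1 : CSide (coPart c - Complex.I • absR c) u :=
    ⟨H.side_σ.cu.sub_left (H.side_p.cu.smul_left _), H.side_σ.cu'.sub_left (H.side_p.cu'.smul_left _)⟩
  have s2 : CSide (-(Complex.I • star c)) u :=
    ⟨(H.c'u.smul_left _).neg_left, (H.c'u'.smul_left _).neg_left⟩
  have t1 : CSide (-(Complex.I • c)) u :=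
    ⟨(H.cu.smul_left _).neg_left, (H.cu'.smul_left _).neg_left⟩
  have t2 : CSide (coPart c - Complex.I • absL c) u :=
    ⟨H.side_σ.cu.sub_left (H.side_q.cu.smul_left _), H.side_σ.cu'.sub_left (H.side_q.cu'.smul_left _)⟩
  -- c-side identities
  set σ := coPart c with hσ
  set p := absR c with hp
  set q := absL c with hq
  set s := sPart c with hs
  set τ := tauPart c with hτ
  have σσ : σ * σ = 1 - s := hc.coPart_sq
  have σc : Commute σ c := hc.commute_coPart
  have σc' : Commute σ (star c) := hc.commute_coPart_star
  have σp : Commute σ p := hc.commute_coPart_absR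
  have σq : Commute σ q := hc.commute_coPart_absL
  have sp : Commute s p := hc.commute_sPart_absR
  have pp : p * p = star c * c := absR_mul_absR
  have qq : q * q = c * star c := absL_mul_absL
  have i1 : (c * p - Complex.I • (σ * c)) * (σ - Complex.I • p) = -(Complex.I • c) := by
    have e : c * p * σ - σ * c * p = 0 := by
      rw [mul_assoc, ← σp.eq, ← mul_assoc, σc.eq, sub_self]
    have e' : σ * c * σ + c * p * p = c := by
      rw [σc.eq, mul_assoc, σσ, mul_assoc c p p, pp, hs, sPart]
      calc c * (1 - (star c * c + c * star c)) + c * (star c * c)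
          = c - c * c * star c := by noncomm_ring
        _ = c := by rw [hc.1, zero_mul, sub_zero]
    calc (c * p - Complex.I • (σ * c)) * (σ - Complex.I • p)
        = (c * p * σ - σ * c * p) - Complex.I • (σ * c * σ + c * p * p) := by
          simp only [mul_sub, sub_mul, smul_mul_assoc, mul_smul_comm, smul_smul, Complex.I_mul_I,
            smul_add, smul_sub, neg_smul, one_smul]
          abel
      _ = _ := by rw [e, e', zero_sub]
  have i2 : ((1 - s) - Complex.I • (σ * τ)) * (σ - Complex.I • p) +
      (c * p + Complex.I • (σ * c)) * (-(Complex.I • star c)) = σ - Complex.I • q := by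
    have e : (1 - s) * σ - σ * τ * p + σ * c * star c = σ := by
      rw [mul_assoc σ τ p, hτ, tauPart, hp, sub_mul (absL c) (absR c) (absR c), hc.absL_mul_absR,
        zero_sub, mul_neg, absR_mul_absR,
        ← σσ, mul_assoc σ σ σ, σσ, hs, sPart]
      noncomm_ring
    have e' : (1 - s) * p + σ * τ * σ + c * p * star c = q := by
      have a1 : σ * τ * σ = (1 - s) * τ := by
        rw [mul_assoc, ← hc.commute_coPart_tau.eq, ← mul_assoc, σσ]
      have a2 : c * p * star c = q * (c * star c) := by rw [hc.mul_absR, mul_assoc]
      have a3 : (1 - s) * q = q - q * (c * star c) := by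
        have : Commute s q := (commute_absL_of hc.commute_sPart.symm hc.commute_sPart_star.symm).symm
        rw [((Commute.one_left q).sub_left this).eq, hs, sPart, mul_sub, mul_add, mul_one,
          ← mul_assoc q (star c), hc.absL_mul_star, zero_mul, zero_add]
      rw [a1, a2, hτ, tauPart, mul_sub, a3]
      abel
    calc ((1 - s) - Complex.I • (σ * τ)) * (σ - Complex.I • p) +
          (c * p + Complex.I • (σ * c)) * (-(Complex.I • star c))
        = ((1 - s) * σ - σ * τ * p + σ * c * star c) -
            Complex.I • ((1 - s) * p + σ * τ * σ + c * p * star c) := by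
          simp only [mul_sub, sub_mul, add_mul, smul_mul_assoc, mul_smul_comm, smul_smul,
            Complex.I_mul_I, smul_add, smul_sub, mul_neg, neg_smul, one_smul]
          abel
      _ = _ := by rw [e, e']
  have i3 : (p * star c + Complex.I • (σ * star c)) * (-(Complex.I • c)) +
      ((1 - s) + Complex.I • (σ * τ)) * (σ - Complex.I • q) = σ - Complex.I • p := by
    have e : σ * star c * c + (1 - s) * σ + σ * τ * q = σ := by
      rw [mul_assoc σ τ q, hτ, tauPart, hq, sub_mul (absL c) (absR c) (absL c), hc.absR_mul_absL,
        sub_zero, absL_mul_absL,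
        ← σσ, mul_assoc σ σ σ, σσ, hs, sPart]
      noncomm_ring
    have e' : p * star c * c + (1 - s) * q - σ * τ * σ = p := by
      have a1 : σ * τ * σ = (1 - s) * τ := by
        rw [mul_assoc, ← hc.commute_coPart_tau.eq, ← mul_assoc, σσ]
      have a3 : (1 - s) * p = p - p * (star c * c) := by
        rw [((Commute.one_left p).sub_left sp).eq, hs, sPart, mul_sub, mul_add, mul_one,
          ← mul_assoc p c, hc.absR_mul, zero_mul, add_zero]
      rw [a1, hτ, tauPart, mul_sub, a3, mul_assoc p]
      abel
    calc (p * star c + Complex.I • (σ * star c)) * (-(Complex.I • c)) +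
          ((1 - s) + Complex.I • (σ * τ)) * (σ - Complex.I • q)
        = (σ * star c * c + (1 - s) * σ + σ * τ * q) -
            Complex.I • (p * star c * c + (1 - s) * q - σ * τ * σ) := by
          simp only [mul_sub, sub_mul, add_mul, smul_mul_assoc, mul_smul_comm, smul_smul,
            Complex.I_mul_I, smul_add, smul_sub, mul_neg, neg_smul, one_smul]
          abel
      _ = _ := by rw [e, e']
  have i4 : (p * star c - Complex.I • (σ * star c)) * (σ - Complex.I • q) =
      -(Complex.I • star c) := by
    have e : p * star c * σ - σ * star c * q = 0 := by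
      rw [mul_assoc p, ← σc'.eq, ← mul_assoc, ← σp.eq, mul_assoc σ p, hp, hc.absR_mul_star,
        ← mul_assoc, ← hq, sub_self]
    have e' : σ * star c * σ + p * star c * q = star c := by
      have a2 : p * star c * q = star c * c * star c := by
        rw [hp, hc.absR_mul_star, mul_assoc, ← hq, qq, ← mul_assoc]
      rw [σc'.eq, mul_assoc (star c), σσ, a2, hs, sPart]
      calc star c * (1 - (star c * c + c * star c)) + star c * c * star c
          = star c - star c * star c * c := by noncomm_ring
        _ = star c := by rw [hc.star_mul_star, zero_mul, sub_zero]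
    calc (p * star c - Complex.I • (σ * star c)) * (σ - Complex.I • q)
        = (p * star c * σ - σ * star c * q) -
            Complex.I • (σ * star c * σ + p * star c * q) := by
          simp only [mul_sub, sub_mul, smul_mul_assoc, mul_smul_comm, smul_smul, Complex.I_mul_I,
            smul_add, smul_sub, neg_smul, one_smul]
          abel
      _ = _ := by rw [e, e', zero_sub]
  rw [mul_assoc, hV, mul_add (join c u), H.join_act L s1, H.join_act' L s2, i1, add_assoc,
    ← add_mul, i2, mul_add (star (join c u)), H.star_join_act L t1, H.star_join_act' L t2, i4,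
    add_left_comm, ← add_mul, i3, add_comm]

theorem liftV_inner (hc : SqZero c) (hu : SqZero u) (h : Commute c u) (h' : Commute c (star u))
    {x x' : B} (hx : star u * u * x = x) (hx' : star u * u * x' = x') :
    star (liftV c u * x) * (liftV c u * x') = star x * x' := by
  have H : Pair c u := ⟨hc, hu, h, h'⟩
  have L : Low u x := ⟨hu, hx⟩
  have L' : Low u x' := ⟨hu, hx'⟩
  have key : ∀ a : B, CSide a u → star x * (a * (u * x')) = 0 := by
    intro a ha
    have : star x * u = 0 := by
      have := congrArg star L.u'
      rwa [star_mul, star_star, star_zero] at this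
    rw [← mul_assoc a, ha.cu.eq, mul_assoc u, ← mul_assoc, this, zero_mul]
  have keyL : ∀ a : B, CSide a u → star u * (a * x') = 0 := by
    intro a ha
    rw [← mul_assoc, ← ha.cu'.eq, mul_assoc, L'.u', mul_zero]
  set σ := coPart c with hσ
  set p := absR c with hp
  have hM : star (liftV c u) * (liftV c u * x') = x' + (p * star c) * (u * x') -
      Complex.I • ((σ * star c) * (u * x')) := by
    have hst : star (liftV c u) = σ + Complex.I • (p + star u * c) := by
      simp [liftV, hσ, hp, star_coPart, star_absR, sub_eq_add_neg]
      abel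
    have d1 : star u * (c * (σ * x')) = 0 := by
      rw [← mul_assoc c]; exact keyL _ ⟨h.mul_left H.side_σ.cu, h'.mul_left H.side_σ.cu'⟩
    have d2 : star u * (c * (p * x')) = 0 := by
      rw [← mul_assoc c]; exact keyL _ ⟨h.mul_left H.side_p.cu, h'.mul_left H.side_p.cu'⟩
    have d3 : star u * (c * (star c * (u * x'))) = c * (star c * x') := by
      rw [← mul_assoc, ← h'.eq, mul_assoc, ← mul_assoc (star u), ← H.c'u'.eq, mul_assoc, L'.u'u]
    have d4 : σ * (σ * x') + p * (p * x') + c * (star c * x') = x' := by
      rw [← mul_assoc, ← mul_assoc, ← mul_assoc, hc.coPart_sq, hp, absR_mul_absR, ← add_mul,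
        ← add_mul, sPart]
      calc (1 - (star c * c + c * star c) + star c * c + c * star c) * x'
          = x' := by noncomm_ring
        _ = x' := rfl
    have d5 : p * (σ * x') = σ * (p * x') := by
      rw [← mul_assoc, ← hc.commute_coPart_absR.eq, mul_assoc]
    calc star (liftV c u) * (liftV c u * x')
        = (σ * (σ * x') + p * (p * x') + c * (star c * x')) + p * (star c * (u * x')) -
            Complex.I • (σ * (star c * (u * x'))) := by
          rw [hst, liftV, ← hσ, ← hp]
          simp only [sub_mul, add_mul, smul_mul_assoc, mul_assoc, mul_sub, mul_add, mul_smul_comm,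
            smul_add, smul_smul, Complex.I_mul_I, neg_smul, one_smul, d1, d2, d3, d5,
            smul_zero]
          abel
      _ = _ := by rw [d4, mul_assoc p, mul_assoc σ]
  rw [star_mul, mul_assoc, hM, mul_sub, mul_add, key _ H.side_W', mul_smul_comm,
    key _ ⟨H.side_σ.cu.mul_left H.c'u, H.side_σ.cu'.mul_left H.c'u'⟩]
  simp

theorem join_persist (hc : SqZero c) (hu : SqZero u) (h : Commute c u) (h' : Commute c (star u))
    {z : B} (hz : star c * c * z = z) :
    star (join c u) * join c u * z = z := by
  have H : Pair c u := ⟨hc, hu, h, h'⟩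
  have L : Low c z := ⟨hc, hz⟩
  have hn : (1 - sPart c) * z = 0 := by
    rw [sub_mul, one_mul, sPart, add_mul, hz, mul_assoc c, L.u', mul_zero, add_zero, sub_self]
  have hσ : coPart c * z = 0 :=
    sqrt_mul_eq_zero (sub_nonneg.2 (sPart_le_one hc)) hn
  have a2 : (1 - sPart c) * (u * absR u) * z = 0 := by
    rw [H.side_n.w.eq, mul_assoc, hn, mul_zero]
  have a3 : coPart c * (c * tauPart u - tauPart c * u) * z = 0 := by
    rw [H.commute_σ_C.eq, mul_assoc, hσ, mul_zero]
  have e1 : join c u * z = c * z := by
    simp only [join, add_mul, smul_mul_assoc, a2, a3, smul_zero, add_zero, mul_assoc, L.p]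
  have hn' : (1 - sPart c) * (c * z) = 0 := by
    have : Commute (1 - sPart c) c := (Commute.one_left c).sub_left hc.commute_sPart
    rw [← mul_assoc, this.eq, mul_assoc, hn, mul_zero]
  have hσ' : coPart c * (c * z) = 0 := by
    rw [← mul_assoc, hc.commute_coPart.eq, mul_assoc, hσ, mul_zero]
  have σC : Commute (coPart c) (star c * tauPart u - tauPart c * star u) :=
    (hc.commute_coPart_star.mul_right H.side_σ.t).sub_right
      (hc.commute_coPart_tau.mul_right H.side_σ.cu')
  have b2 : (1 - sPart c) * (absR u * star u) * (c * z) = 0 := by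
    rw [H.side_n.w'.eq, mul_assoc, hn', mul_zero]
  have b3 : coPart c * (star c * tauPart u - tauPart c * star u) * (c * z) = 0 := by
    rw [σC.eq, mul_assoc, hσ', mul_zero]
  rw [mul_assoc, e1, star_join H]
  rw [sub_mul (absR c * star c + (1 - sPart c) * (absR u * star u)), add_mul, smul_mul_assoc,
    b2, b3, smul_zero, sub_zero, add_zero, mul_assoc, ← mul_assoc (star c), hz, L.p]

end Vale.Agent.P101
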