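import Mathlib

/-! P101: a partial square root of a positive element dominated by `W* W`. -/

open Filter Topology

namespace Vale.Agent.P101

variable {B : Type*} [CStarAlgebra B] [PartialOrder B] [StarOrderedRing B]

private theorem norm_star_mul_bound {W G : B} {K C : ℝ} (hK : 0 ≤ K) (hG : 0 ≤ G)
    (h : G ≤ K • (star W * W)) {f : ℝ → ℝ} (hf : Continuous f)
    (hC : ∀ t, 0 ≤ t → |t * f t ^ 2| ≤ C) :
    ‖cfc f (star W * W) * CFC.sqrt G‖ ^ 2 ≤ K * C := by
  set Y := star W * W with hY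
  have hY0 : 0 ≤ Y := star_mul_self_nonneg W
  have hC0 : 0 ≤ C := by
    have := hC 0 le_rfl
    simpa using this
  set F := cfc f Y with hF
  have hFs : star F = F := (cfc_predicate f Y : IsSelfAdjoint F).star_eq
  have hsq : CFC.sqrt G * CFC.sqrt G = G := CFC.sqrt_mul_sqrt_self G hG
  have hss : star (CFC.sqrt G) = CFC.sqrt G :=
    (IsSelfAdjoint.of_nonneg (CFC.sqrt_nonneg G)).star_eq
  have e1 : ‖F * CFC.sqrt G‖ ^ 2 = ‖F * G * F‖ := by
    have := CStarRing.norm_self_mul_star (x := F * CFC.sqrt G)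
    rw [star_mul, hFs, hss] at this
    rw [sq, ← this]
    congr 1
    rw [mul_assoc F, ← mul_assoc (CFC.sqrt G) (CFC.sqrt G) F, hsq, mul_assoc]
  rw [e1]
  have h1 : 0 ≤ F * G * F := by
    have := star_left_conjugate_nonneg hG F
    rwa [hFs] at this
  have h2 : F * G * F ≤ K • (F * Y * F) := by
    have := star_left_conjugate_le_conjugate h F
    rw [hFs] at this
    simpa [mul_smul_comm, smul_mul_assoc] using this
  have e2 : F * Y * F = cfc (fun t => t * f t ^ 2) Y := by
    rw [hF]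
    nth_rw 2 [← cfc_id' ℝ Y]
    rw [← cfc_mul f (fun t => t) Y, ← cfc_mul (fun t => f t * t) f Y]
    exact cfc_congr fun t _ => by ring
  refine (CStarAlgebra.norm_le_norm_of_nonneg_of_le h1 h2).trans ?_
  rw [norm_smul, Real.norm_of_nonneg hK, e2]
  refine mul_le_mul_of_nonneg_left (norm_cfc_le hC0 fun t ht => ?_) hK
  exact hC t (spectrum_nonneg_of_nonneg hY0 ht)

/-- The approximants `1 / √(max t 0 + η)`. -/
noncomputable def invRoot (η t : ℝ) : ℝ := (Real.sqrt (max t 0 + η))⁻¹

theorem continuous_invRoot {η : ℝ} (hη : 0 < η) : Continuous (invRoot η) :=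
  Continuous.inv₀ (by fun_prop) fun t => (Real.sqrt_pos.mpr (by positivity)).ne'

theorem sqrt_sub_invRoot {η t : ℝ} (hη : 0 < η) (ht : 0 ≤ t) :
    0 ≤ Real.sqrt t - t * invRoot η t ∧ Real.sqrt t - t * invRoot η t ≤ Real.sqrt η := by
  simp only [invRoot, max_eq_left ht]
  set a := Real.sqrt t with ha
  set b := Real.sqrt (t + η) with hb
  have hb0 : 0 < b := Real.sqrt_pos.mpr (by linarith)
  have hab : a ≤ b := Real.sqrt_le_sqrt (by linarith)
  have hab' : b ≤ a + Real.sqrt η := by
    refine (Real.sqrt_le_left (add_nonneg (Real.sqrt_nonneg t) (Real.sqrt_nonneg η))).mpr ?_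
    nlinarith [Real.mul_self_sqrt ht, Real.mul_self_sqrt hη.le,
      mul_nonneg (Real.sqrt_nonneg t) (Real.sqrt_nonneg η)]
  have ht' : t = a * a := (Real.mul_self_sqrt ht).symm
  have ha0 : 0 ≤ a := Real.sqrt_nonneg t
  have e : a - t * b⁻¹ = a / b * (b - a) := by
    rw [ht']
    field_simp
  rw [e]
  have h1 : a / b ≤ 1 := (div_le_one hb0).mpr hab
  refine ⟨mul_nonneg (div_nonneg ha0 hb0.le) (by linarith), ?_⟩
  calc a / b * (b - a) ≤ 1 * (b - a) := mul_le_mul_of_nonneg_right h1 (by linarith)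
    _ ≤ Real.sqrt η := by linarith

theorem norm_mul_cfc {W R : B} {f : ℝ → ℝ} (hf : Continuous f) (hR : star R = R) :
    ‖W * cfc f (star W * W) * R‖ = ‖cfc (fun t => Real.sqrt t * f t) (star W * W) * R‖ := by
  set Y := star W * W with hY
  have hY0 : 0 ≤ Y := star_mul_self_nonneg W
  set F := cfc f Y with hF
  have hFs : star F = F := (cfc_predicate f Y : IsSelfAdjoint F).star_eq
  set F' := cfc (fun t => Real.sqrt t * f t) Y with hF'
  have hFs' : star F' = F' := (cfc_predicate _ Y : IsSelfAdjoint F').star_eq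
  have e : F * Y * F = F' * F' := by
    rw [hF, hF']
    nth_rw 2 [← cfc_id' ℝ Y]
    rw [← cfc_mul f (fun t => t) Y, ← cfc_mul (fun t => f t * t) f Y, ← cfc_mul _ _ Y]
    refine cfc_congr fun t ht => ?_
    have := Real.mul_self_sqrt (spectrum_nonneg_of_nonneg hY0 ht)
    linear_combination (-(f t ^ 2)) * this
  have h2 : ‖W * F * R‖ * ‖W * F * R‖ = ‖F' * R‖ * ‖F' * R‖ := by
    rw [← CStarRing.norm_star_mul_self, ← CStarRing.norm_star_mul_self]
    congr 1
    calc star (W * F * R) * (W * F * R) = R * (F * (star W * W) * F) * R := by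
          simp only [star_mul, hFs, hR, mul_assoc]
      _ = R * (F' * F') * R := by rw [← hY, e]
      _ = _ := by simp only [star_mul, hFs', hR, mul_assoc]
  nlinarith [norm_nonneg (W * F * R), norm_nonneg (F' * R)]

/-- `√(η / (t + η))` for `t ≥ 0`. -/
noncomputable def defectRoot (η t : ℝ) : ℝ := Real.sqrt (η / (max t 0 + η))

theorem continuous_defectRoot {η : ℝ} (hη : 0 < η) : Continuous (defectRoot η) :=
  (Continuous.div continuous_const (by fun_prop) fun t =>
    (add_pos_of_nonneg_of_pos (le_max_right t 0) hη).ne').sqrt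

theorem invRoot_defectRoot {η t : ℝ} (hη : 0 < η) (ht : 0 ≤ t) :
    invRoot η t * t * invRoot η t + defectRoot η t * defectRoot η t = 1 ∧
      |t * defectRoot η t ^ 2| ≤ η := by
  have h1 : 0 < t + η := by linarith
  simp only [invRoot, defectRoot, max_eq_left ht]
  have hd : Real.sqrt (η / (t + η)) ^ 2 = η / (t + η) := Real.sq_sqrt (by positivity)
  have hi : (Real.sqrt (t + η))⁻¹ * (Real.sqrt (t + η))⁻¹ = (t + η)⁻¹ := by
    rw [← mul_inv, Real.mul_self_sqrt h1.le]
  constructor
  · rw [mul_right_comm, hi, ← sq, hd]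
    field_simp
  · rw [hd, abs_of_nonneg (by positivity), ← mul_div_assoc, div_le_iff₀ h1]
    nlinarith

theorem cfc_invRoot_defectRoot {Y : B} (hY0 : 0 ≤ Y) {η : ℝ} (hη : 0 < η) :
    cfc (invRoot η) Y * Y * cfc (invRoot η) Y + cfc (defectRoot η) Y * cfc (defectRoot η) Y = 1 := by
  have hk := continuous_invRoot hη
  have hd := continuous_defectRoot hη
  have hYsa : IsSelfAdjoint Y := IsSelfAdjoint.of_nonneg hY0
  nth_rw 2 [← cfc_id' ℝ Y]
  rw [← cfc_mul (invRoot η) (fun t => t) Y, ← cfc_mul (fun t => invRoot η t * t) (invRoot η) Y,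
    ← cfc_mul (defectRoot η) (defectRoot η) Y,
    ← cfc_add Y (fun t => invRoot η t * t * invRoot η t) (fun t => defectRoot η t * defectRoot η t),
    ← cfc_one ℝ Y]
  exact cfc_congr fun t ht => (invRoot_defectRoot hη (spectrum_nonneg_of_nonneg hY0 ht)).1

theorem norm_approx_sub_le {W G : B} {K : ℝ} (hK : 0 ≤ K) (hG : 0 ≤ G)
    (h : G ≤ K • (star W * W)) {a b c : ℝ} (ha : 0 < a) (hb : 0 < b) (hac : a ≤ c) (hbc : b ≤ c) :
    ‖W * cfc (invRoot a) (star W * W) * CFC.sqrt G -
      W * cfc (invRoot b) (star W * W) * CFC.sqrt G‖ ≤ Real.sqrt (K * c) := by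
  have hka := continuous_invRoot ha
  have hkb := continuous_invRoot hb
  have hR : star (CFC.sqrt G) = CFC.sqrt G :=
    (IsSelfAdjoint.of_nonneg (CFC.sqrt_nonneg G)).star_eq
  have e : W * cfc (invRoot a) (star W * W) * CFC.sqrt G -
      W * cfc (invRoot b) (star W * W) * CFC.sqrt G =
      W * cfc (fun t => invRoot a t - invRoot b t) (star W * W) * CFC.sqrt G := by
    rw [cfc_sub (invRoot a) (invRoot b) _ hka.continuousOn hkb.continuousOn]
    noncomm_ring
  rw [e, norm_mul_cfc (f := fun t => invRoot a t - invRoot b t) (hka.sub hkb) hR]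
  refine Real.le_sqrt_of_sq_le (norm_star_mul_bound hK hG h (by fun_prop) fun t ht => ?_)
  have e2 : t * (Real.sqrt t * (invRoot a t - invRoot b t)) ^ 2 =
      (t * invRoot a t - t * invRoot b t) ^ 2 := by
    have := Real.mul_self_sqrt ht
    linear_combination t * (invRoot a t - invRoot b t) ^ 2 * this
  rw [e2, abs_of_nonneg (sq_nonneg _)]
  obtain ⟨a1, a2⟩ := sqrt_sub_invRoot ha ht
  obtain ⟨b1, b2⟩ := sqrt_sub_invRoot hb ht
  have := Real.sqrt_le_sqrt hac
  have := Real.sqrt_le_sqrt hbc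
  have := Real.mul_self_sqrt (ha.le.trans hac)
  nlinarith

theorem norm_sq_approx_sub_le {W G : B} {K : ℝ} (hK : 0 ≤ K) (hG : 0 ≤ G)
    (h : G ≤ K • (star W * W)) {η : ℝ} (hη : 0 < η) :
    ‖star (W * cfc (invRoot η) (star W * W) * CFC.sqrt G) *
      (W * cfc (invRoot η) (star W * W) * CFC.sqrt G) - G‖ ≤ K * η := by
  set R := CFC.sqrt G with hR'
  set Y := star W * W with hY
  have hR : star R = R := (IsSelfAdjoint.of_nonneg (CFC.sqrt_nonneg G)).star_eq
  have hRR : R * R = G := CFC.sqrt_mul_sqrt_self G hG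
  have hks : star (cfc (invRoot η) Y) = cfc (invRoot η) Y :=
    (cfc_predicate (invRoot η) Y : IsSelfAdjoint _).star_eq
  have hgs : star (cfc (defectRoot η) Y) = cfc (defectRoot η) Y :=
    (cfc_predicate (defectRoot η) Y : IsSelfAdjoint _).star_eq
  have hx := eq_sub_of_add_eq' (cfc_invRoot_defectRoot (star_mul_self_nonneg W) hη)
  rw [← hY] at hx
  have e : star (W * cfc (invRoot η) Y * R) * (W * cfc (invRoot η) Y * R) =
      R * (cfc (invRoot η) Y * Y * cfc (invRoot η) Y) * R := by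
    simp only [star_mul, hks, hR, mul_assoc]
    simp only [hY, mul_assoc]
  have e4 : G - star (W * cfc (invRoot η) Y * R) * (W * cfc (invRoot η) Y * R) =
      star (cfc (defectRoot η) Y * R) * (cfc (defectRoot η) Y * R) := by
    calc _ = R * (cfc (defectRoot η) Y * cfc (defectRoot η) Y) * R := by
          rw [hx, e, mul_sub, sub_mul, mul_one, hRR]
      _ = _ := by simp only [star_mul, hgs, hR, mul_assoc]
  rw [← norm_neg, neg_sub, e4, CStarRing.norm_star_mul_self, ← sq]
  exact norm_star_mul_bound hK hG h (continuous_defectRoot hη) fun t ht =>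
    (invRoot_defectRoot hη ht).2

theorem exists_partial_sqrt {W G C : B} {K : ℝ} (hK : 0 ≤ K) (hG : 0 ≤ G)
    (h : G ≤ K • (star W * W)) (hC : C * W = W) :
    ∃ s : B, star s * s = G ∧ C * s = s := by
  set η : ℕ → ℝ := fun n => 1 / ((n : ℝ) + 1) with hη
  have hη0 : ∀ n, 0 < η n := fun n => by positivity
  have hηlim : Tendsto η atTop (𝓝 0) := tendsto_one_div_add_atTop_nhds_zero_nat
  have hmono : ∀ N j, N ≤ j → η j ≤ η N := fun N j hj =>
    one_div_le_one_div_of_le (by positivity) (by exact_mod_cast Nat.succ_le_succ hj)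
  set s : ℕ → B := fun n => W * cfc (invRoot (η n)) (star W * W) * CFC.sqrt G with hs
  have hb0 : Tendsto (fun N => Real.sqrt (K * η N)) atTop (𝓝 0) := by
    simpa using (hηlim.const_mul K).sqrt
  obtain ⟨l, hl⟩ := cauchySeq_tendsto_of_complete (u := s)
    (cauchySeq_of_le_tendsto_0 (fun N => Real.sqrt (K * η N))
      (fun n m N hn hm => by
        rw [dist_eq_norm]
        exact norm_approx_sub_le hK hG h (hη0 n) (hη0 m) (hmono N n hn) (hmono N m hm)) hb0)
  refine ⟨l, tendsto_nhds_unique ((hl.star).mul hl) ?_, tendsto_nhds_unique (hl.const_mul C) ?_⟩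
  · rw [tendsto_iff_norm_sub_tendsto_zero]
    exact squeeze_zero (fun n => norm_nonneg _)
      (fun n => norm_sq_approx_sub_le hK hG h (hη0 n)) (by simpa using hηlim.const_mul K)
  · refine hl.congr fun n => ?_
    simp only [hs, ← mul_assoc, hC]

end Vale.Agent.P101
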