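import Vale.Agent.P101.Join
import Vale.Agent.P101.SlotProd
import Vale.Agent.P101.SqrtLimit

/-! P101: iterated joins over commuting slots and the pigeonhole construction. -/

namespace Vale.Agent.P101

open StarSubalgebra

variable {B : Type*} [CStarAlgebra B] [PartialOrder B] [StarOrderedRing B]

/-- The hypotheses on `m * m + 1` or more commuting slots. -/
structure Slots (B : Type*) [CStarAlgebra B] where
  m : ℕ
  N : ℕ
  hN : m * m < N
  u : Fin N → B
  β : Fin N → B
  a : Fin N → Fin m → B
  sq : ∀ i, u i * u i = 0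
  norm_le : ∀ i, ‖u i‖ ≤ 1
  sa : ∀ i, star (β i) = β i
  fix : ∀ i, star (u i) * u i * β i = β i
  sum_eq : ∀ i, ∑ l, star (a i l) * β i * β i * a i l = 1
  comm : ∀ i k, i ≠ k → ∀ x ∈ ({u i, β i} : Set B) ∪ Set.range (a i),
    ∀ y ∈ ({u k, β k} : Set B) ∪ Set.range (a k), Commute x y ∧ Commute (star x) y

theorem commute_coPart {u z : B} (h1 : Commute u z) (h2 : Commute (star u) z) :
    Commute (coPart u) z := by
  rw [coPart, CFC.sqrt_eq_cfc]
  exact Commute.cfc_nnreal ((Commute.one_left z).sub_left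
    ((h2.mul_left h1).add_left (h1.mul_left h2))) _

theorem commute_coPart_self {u : B} (h : u * u = 0) :
    Commute (coPart u) u ∧ Commute (coPart u) (star u) := by
  have h' : star u * star u = 0 := by rw [← star_mul, h, star_zero]
  constructor
  · rw [coPart, CFC.sqrt_eq_cfc]
    refine Commute.cfc_nnreal ((Commute.one_left u).sub_left ?_) _
    show (star u * u + u * star u) * u = u * (star u * u + u * star u)
    rw [add_mul, mul_add, mul_assoc (star u) u u, h, ← mul_assoc u u (star u), h]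
    simp [mul_assoc]
  · rw [coPart, CFC.sqrt_eq_cfc]
    refine Commute.cfc_nnreal ((Commute.one_left _).sub_left ?_) _
    show (star u * u + u * star u) * star u = star u * (star u * u + u * star u)
    rw [add_mul, mul_add, mul_assoc u (star u) (star u), h', ← mul_assoc (star u) (star u) u, h']
    simp [mul_assoc]

theorem coPart_mul_self {u : B} (h : SqZero u) : coPart u * coPart u = 1 - sPart u :=
  CFC.sqrt_mul_sqrt_self _ (sub_nonneg.mpr (sPart_le_one h))

namespace Slots

variable (D : Slots B)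

/-- The generators of a slot. -/
def gen (i : Fin D.N) : Set B := ({D.u i, D.β i} : Set B) ∪ Set.range (D.a i)

/-- The double commutant of a slot. -/
def alg (i : Fin D.N) : StarSubalgebra ℂ B := centralizer ℂ (centralizer ℂ (D.gen i) : Set B)

theorem gen_subset (i : Fin D.N) : D.gen i ⊆ D.alg i := fun x hx =>
  (mem_centralizer_iff ℂ).mpr fun g hg => by
    refine ⟨(((mem_centralizer_iff ℂ).mp hg) x hx).1.symm, ?_⟩
    exact (((mem_centralizer_iff ℂ).mp (star_mem hg)) x hx).1.symm

theorem commute_alg_of {i : Fin D.N} {x z : B} (hx : x ∈ D.alg i)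
    (hz : ∀ g ∈ D.gen i, Commute g z ∧ Commute (star g) z) : Commute x z :=
  (((mem_centralizer_iff ℂ).mp hx) z ((mem_centralizer_iff ℂ).mpr hz)).1.symm

theorem commute_alg {i k : Fin D.N} (h : i ≠ k) {x y : B} (hx : x ∈ D.alg i) (hy : y ∈ D.alg k) :
    Commute x y := by
  refine (D.commute_alg_of hy fun g hg => ⟨?_, ?_⟩).symm
  · exact (D.commute_alg_of hx fun g' hg' => D.comm i k h g' hg' g hg).symm
  · refine (D.commute_alg_of hx fun g' hg' => ?_).symm
    obtain ⟨e1, e2⟩ := D.comm k i h.symm g hg g' hg'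
    refine ⟨e2.symm, ?_⟩
    exact e1.star_star.symm

theorem u_mem (i : Fin D.N) : D.u i ∈ D.alg i := D.gen_subset i (by simp [gen])

theorem β_mem (i : Fin D.N) : D.β i ∈ D.alg i := D.gen_subset i (by simp [gen])

theorem a_mem (i : Fin D.N) (l : Fin D.m) : D.a i l ∈ D.alg i := D.gen_subset i (by simp [gen])

theorem sqZero (i : Fin D.N) : SqZero (D.u i) := ⟨D.sq i, D.norm_le i⟩

/-- `√(1 - d_i)`. -/
noncomputable def r (i : Fin D.N) : B := coPart (D.u i)

theorem r_mem (i : Fin D.N) : D.r i ∈ D.alg i :=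
  (mem_centralizer_iff ℂ).mpr fun g hg => by
    have h1 := (mem_centralizer_iff ℂ).mp hg (D.u i) (by simp [gen])
    have h2 := (mem_centralizer_iff ℂ).mp (star_mem hg) (D.u i) (by simp [gen])
    exact ⟨(commute_coPart h1.1 h1.2).symm, (commute_coPart h2.1 h2.2).symm⟩

theorem star_r (i : Fin D.N) : star (D.r i) = D.r i := star_coPart

theorem star_u_mul_β (i : Fin D.N) : star (D.u i) * D.β i = 0 := by
  have h' : star (D.u i) * star (D.u i) = 0 := by rw [← star_mul, D.sq, star_zero]
  rw [← D.fix i, ← mul_assoc, ← mul_assoc, h', zero_mul, zero_mul]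

theorem β_gram (i : Fin D.N) :
    star (D.u i * D.β i) * (D.u i * D.β i) = D.β i * D.β i := by
  rw [star_mul, D.sa, mul_assoc, ← mul_assoc (star (D.u i)), D.fix]

theorem r_mul_of (i : Fin D.N) {w : B} (h : sPart (D.u i) * w = w) : D.r i * w = 0 := by
  rw [← CStarRing.star_mul_self_eq_zero_iff, star_mul, star_r, mul_assoc, ← mul_assoc (D.r i),
    r, coPart_mul_self (D.sqZero i), sub_mul, one_mul, h, sub_self, mul_zero]

theorem r_mul_β (i : Fin D.N) : D.r i * D.β i = 0 := D.r_mul_of i <| by
  rw [sPart, add_mul, D.fix, mul_assoc, D.star_u_mul_β, mul_zero, add_zero]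

theorem r_mul_uβ (i : Fin D.N) : D.r i * (D.u i * D.β i) = 0 := D.r_mul_of i <| by
  rw [sPart, add_mul, mul_assoc (star (D.u i)), ← mul_assoc (D.u i) (D.u i), D.sq, zero_mul,
    mul_zero, zero_add, mul_assoc (D.u i), ← mul_assoc (star (D.u i)), D.fix]

/-- The `i`th element fed to the iterated join. -/
noncomputable def U (i : ℕ) : B := if h : i < D.N then D.u ⟨i, h⟩ else 0

/-- The iterated join. -/
noncomputable def c : ℕ → B
  | 0 => 0
  | i + 1 => join (c i) (D.U i)

theorem c_succ (k : Fin D.N) : D.c ((k : ℕ) + 1) = join (D.c k) (D.u k) := by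
  simp [c, U, k.isLt]

theorem commute_u {i k : Fin D.N} (h : i ≠ k) :
    Commute (D.u i) (D.u k) ∧ Commute (star (D.u i)) (D.u k) ∧ Commute (D.u i) (star (D.u k)) ∧
      Commute (star (D.u i)) (star (D.u k)) :=
  ⟨D.commute_alg h (D.u_mem i) (D.u_mem k), D.commute_alg h (star_mem (D.u_mem i)) (D.u_mem k),
    D.commute_alg h (D.u_mem i) (star_mem (D.u_mem k)),
    D.commute_alg h (star_mem (D.u_mem i)) (star_mem (D.u_mem k))⟩

theorem c_spec : ∀ i, i ≤ D.N → SqZero (D.c i) ∧
    ∀ z : B, (∀ k : Fin D.N, (k : ℕ) < i → Commute (D.u k) z ∧ Commute (star (D.u k)) z) →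
      Commute (D.c i) z ∧ Commute (star (D.c i)) z
  | 0, _ => ⟨sqZero_zero, fun z _ => by simp [c]⟩
  | i + 1, hi => by
    obtain ⟨hc, hcomm⟩ := c_spec i (Nat.le_of_succ_le hi)
    set k : Fin D.N := ⟨i, hi⟩ with hk
    have hne : ∀ k' : Fin D.N, (k' : ℕ) < i → k' ≠ k := fun k' hk' e => by
      rw [e, hk] at hk'
      exact lt_irrefl _ hk'
    have h1 := hcomm (D.u k) fun k' hk' => ⟨(D.commute_u (hne k' hk')).1, (D.commute_u (hne k' hk')).2.1⟩
    have h2 := hcomm (star (D.u k)) fun k' hk' =>
      ⟨(D.commute_u (hne k' hk')).2.2.1, (D.commute_u (hne k' hk')).2.2.2⟩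
    rw [show D.c (i + 1) = join (D.c i) (D.u k) from D.c_succ k]
    refine ⟨join_sqZero hc (D.sqZero k) h1.1 h2.1, fun z hz => ?_⟩
    have h3 := hcomm z fun k' hk' => hz k' (Nat.lt_succ_of_lt hk')
    have h4 := hz k (Nat.lt_succ_self i)
    exact ⟨(commute_join hc (D.sqZero k) h3.1 h3.2 h4.1 h4.2).1,
      (commute_join hc (D.sqZero k) h3.1 h3.2 h4.1 h4.2).2.1⟩

theorem c_comm_slot (k : Fin D.N) {x : B} (hx : x ∈ D.alg k) :
    Commute (D.c k) x ∧ Commute (star (D.c k)) x :=
  (D.c_spec k k.isLt.le).2 x fun k' hk' =>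
    ⟨D.commute_alg (ne_of_lt (show k' < k from hk')) (D.u_mem k') hx,
      D.commute_alg (ne_of_lt (show k' < k from hk')) (star_mem (D.u_mem k')) hx⟩

theorem comm_pair {X Y : Fin D.N → B} (hX : ∀ i, X i ∈ D.alg i) (hY : ∀ i, Y i ∈ D.alg i) :
    ∀ i k, i ≠ k → Commute (X i) (Y k) := fun i k h => D.commute_alg h (hX i) (hY k)

/-- `∏_{k < i} (1 - d_k)`. -/
noncomputable def Q (i : ℕ) : B :=
  slotProd fun k : Fin D.N => if (k : ℕ) < i then D.r k * D.r k else 1

theorem one_sub_sPart_c_le : ∀ i, i ≤ D.N → 1 - sPart (D.c i) ≤ (2 : ℝ) ^ i • D.Q i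
  | 0, _ => by
    have e : D.Q 0 = 1 := by simp [Q, slotProd]
    simp [c, sPart, e]
  | i + 1, hi => by
    have ih := one_sub_sPart_c_le i (Nat.le_of_succ_le hi)
    set k : Fin D.N := ⟨i, hi⟩ with hk
    obtain ⟨hr1, hr2⟩ := D.c_comm_slot k (D.r_mem k)
    have hs : Commute (D.r k) (1 - sPart (D.c i)) :=
      ((Commute.one_left _).sub_left ((hr2.mul_left hr1).add_left (hr1.mul_left hr2))).symm
    have hQ : D.Q (i + 1) = D.r k * D.Q i * D.r k := by
      have hm : ∀ n : ℕ, ∀ k' : Fin D.N, (if (k' : ℕ) < n then D.r k' * D.r k' else 1) ∈ D.alg k' := by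
        intro n k'
        split_ifs
        · exact mul_mem (D.r_mem k') (D.r_mem k')
        · exact one_mem _
      rw [Q, slotProd_split k fun j hj => D.commute_alg hj.symm (hm (i + 1) k) (hm (i + 1) j),
        if_pos (Nat.lt_succ_self i)]
      have e : Function.update (fun k' : Fin D.N => if (k' : ℕ) < i + 1 then D.r k' * D.r k' else 1)
          k 1 = fun k' : Fin D.N => if (k' : ℕ) < i then D.r k' * D.r k' else 1 := by
        funext k'
        rcases eq_or_ne k' k with h | h
        · subst h; simp [hk]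
        · have hne : (k' : ℕ) ≠ i := fun e => h (Fin.ext e)
          rw [Function.update_of_ne h]
          exact if_congr (by omega) rfl rfl
      rw [e, ← Q, mul_assoc]
      have hc : Commute (D.r k) (D.Q i) := commute_slotProd fun j => by
        rcases eq_or_ne j k with h | h
        · subst h
          split_ifs
          · exact (Commute.refl _).mul_right (Commute.refl _)
          · exact Commute.one_right _
        · exact D.commute_alg h.symm (D.r_mem k) (hm i j)
      conv_lhs => rw [hc.eq, ← mul_assoc]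
    have hu := (D.c_spec i (Nat.le_of_succ_le hi))
    have h1 := D.c_comm_slot k (D.u_mem k)
    have h2 := D.c_comm_slot k (star_mem (D.u_mem k))
    rw [show D.c (i + 1) = join (D.c i) (D.u k) from D.c_succ k]
    refine (one_sub_sPart_join_le hu.1 (D.sqZero k) h1.1 h2.1).trans ?_
    rw [← coPart_mul_self (D.sqZero k), ← Slots.r, ← mul_assoc (1 - sPart (D.c i)),
      ← hs.eq, ← mul_assoc, hQ]
    have := star_left_conjugate_le_conjugate ih (D.r k)
    rw [star_r, mul_smul_comm, smul_mul_assoc] at this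
    calc 2 * (D.r k * (1 - sPart (D.c i))) * D.r k
        = (2 : ℝ) • (D.r k * (1 - sPart (D.c i)) * D.r k) := by
          rw [two_smul, mul_assoc 2, two_mul]
      _ ≤ (2 : ℝ) • ((2 : ℝ) ^ i • (D.r k * D.Q i * D.r k)) :=
          smul_le_smul_of_nonneg_left this (by norm_num)
      _ = _ := by rw [smul_smul, pow_succ']

/-- An item: a set of `m + 1` slots and a letter. -/
abbrev Item : Type := {p : Finset (Fin D.N) × Fin D.m // p.1.card = D.m + 1}

noncomputable instance : Fintype D.Item := Subtype.fintype _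

noncomputable instance : DecidableEq D.Item := Classical.decEq _

variable {D}

/-- The largest slot of an item. -/
noncomputable def top (p : D.Item) : Fin D.N := p.1.1.orderEmbOfFin p.2 (Fin.last D.m)

/-- The marked slot of an item, which codes its letter. -/
noncomputable def mark (p : D.Item) : Fin D.N := p.1.1.orderEmbOfFin p.2 p.1.2.castSucc

theorem top_mem (p : D.Item) : top p ∈ p.1.1 := Finset.orderEmbOfFin_mem _ _ _

theorem le_top {p : D.Item} {i : Fin D.N} (h : i ∈ p.1.1) : i ≤ top p := by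
  have : i ∈ Set.range (p.1.1.orderEmbOfFin p.2) := by simpa using h
  obtain ⟨j, rfl⟩ := this
  exact (p.1.1.orderEmbOfFin p.2).monotone (Fin.le_last j)

theorem mark_ne_top (p : D.Item) : mark p ≠ top p := fun e =>
  (Fin.castSucc_lt_last p.1.2).ne ((p.1.1.orderEmbOfFin p.2).injective e)

/-- The slot entries of an item. -/
noncomputable def X (p : D.Item) (i : Fin D.N) : B :=
  if i ∈ p.1.1 then (if i = mark p then D.u i * D.β i else D.β i) * D.a i p.1.2 * D.r i else D.r i

theorem X_mem (p : D.Item) (i : Fin D.N) : X p i ∈ D.alg i := by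
  unfold X
  split_ifs
  · exact mul_mem (mul_mem (mul_mem (D.u_mem i) (D.β_mem i)) (D.a_mem i _)) (D.r_mem i)
  · exact mul_mem (mul_mem (D.β_mem i) (D.a_mem i _)) (D.r_mem i)
  · exact D.r_mem i

theorem star_X_mem (p : D.Item) (i : Fin D.N) : star (X p i) ∈ D.alg i := star_mem (X_mem p i)

theorem r_mul_X {p : D.Item} {i : Fin D.N} (h : i ∈ p.1.1) : D.r i * X p i = 0 := by
  unfold X
  rw [if_pos h]
  split_ifs
  · rw [← mul_assoc, ← mul_assoc, D.r_mul_uβ, zero_mul, zero_mul]
  · rw [← mul_assoc, ← mul_assoc, D.r_mul_β, zero_mul, zero_mul]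

/-- The vector of an item before lifting. -/
noncomputable def T (p : D.Item) : B := slotProd (X p)

/-- The lifted vector of an item. -/
noncomputable def V (p : D.Item) : B := liftV (D.c (top p)) (D.u (top p))

theorem fix_T (p : D.Item) : star (D.u (top p)) * D.u (top p) * T p = T p := by
  have hX : X p (top p) = D.β (top p) * D.a (top p) p.1.2 * D.r (top p) := by
    simp [X, top_mem p, (mark_ne_top p).symm]
  rw [T, slotProd_split (top p) fun j hj => D.commute_alg hj.symm (X_mem p _) (X_mem p j),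
    ← mul_assoc, hX, ← mul_assoc, ← mul_assoc, D.fix]

theorem star_T_mul_T (p q : D.Item) : star (T p) * T q = slotProd (star (X p) * X q) := by
  rw [T, T, slotProd_star (D.comm_pair (X_mem p) (X_mem p))]
  exact slotProd_mul (D.comm_pair (X := star (X p)) (fun i => star_X_mem p i) (X_mem q))

theorem inner_same_top {p q : D.Item} (h : top p = top q) :
    star (V p * T p) * (V q * T q) = star (T p) * T q := by
  have hc := (D.c_spec (top p) (top p).isLt.le).1
  have h1 := D.c_comm_slot (top p) (D.u_mem (top p))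
  have h2 := D.c_comm_slot (top p) (star_mem (D.u_mem (top p)))
  have hq : star (D.u (top p)) * D.u (top p) * T q = T q := by rw [h]; exact fix_T q
  have := liftV_inner hc (D.sqZero (top p)) h1.1 h2.1 (fix_T p) hq
  simpa [V, ← h] using this

theorem inner_same_top_ne {p q : D.Item} (hne : p ≠ q) (h : top p = top q) :
    star (V p * T p) * (V q * T q) = 0 := by
  rw [inner_same_top h, star_T_mul_T]
  by_cases hS : p.1.1 = q.1.1
  · have hl : p.1.2 ≠ q.1.2 := fun e => hne (Subtype.ext (Prod.ext hS e))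
    have hi : mark p ∈ p.1.1 := Finset.orderEmbOfFin_mem _ _ _
    refine slotProd_eq_zero (mark p) ?_
    have hm : mark p ≠ mark q := by
      intro e
      obtain ⟨⟨S, l⟩, hp⟩ := p
      obtain ⟨⟨S', l'⟩, hq⟩ := q
      obtain rfl : S = S' := hS
      exact hl (Fin.castSucc_injective _ ((S.orderEmbOfFin hp).injective e))
    simp only [Pi.mul_apply, Pi.star_apply, X, if_pos hi, if_pos (hS ▸ hi), if_neg hm, if_true]
    simp only [star_mul, D.sa, mul_assoc]
    rw [← mul_assoc (star (D.u (mark p))), D.star_u_mul_β]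
    simp
  · obtain ⟨i, hi, hi'⟩ : ∃ i ∈ p.1.1, i ∉ q.1.1 := by
      by_contra! hsub
      exact hS (Finset.eq_of_subset_of_card_le hsub (by rw [p.2, q.2]))
    refine slotProd_eq_zero i ?_
    have : X q i = D.r i := if_neg hi'
    rw [Pi.mul_apply, Pi.star_apply, this, ← D.star_r, ← star_mul, r_mul_X hi, star_zero]

theorem inner_top_lt {p q : D.Item} (h : top p < top q) :
    star (V p * T p) * (V q * T q) = 0 := by
  set k := top q with hk
  have hkp : k ∉ p.1.1 := fun hm => absurd (le_top hm) (not_le.mpr h)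
  have hcomm : ∀ (s : Fin D.N), s ≤ k → Commute (D.r k) (liftV (D.c s) (D.u s)) := by
    intro s hs
    have hc := (D.c_spec s s.isLt.le)
    have hc1 := hc.2 (D.r k) fun j hj =>
      ⟨D.commute_alg (ne_of_lt (lt_of_lt_of_le (show j < s from hj) hs)) (D.u_mem j) (D.r_mem k),
        D.commute_alg (ne_of_lt (lt_of_lt_of_le (show j < s from hj) hs)) (star_mem (D.u_mem j))
          (D.r_mem k)⟩
    have hu : Commute (D.u s) (D.r k) ∧ Commute (star (D.u s)) (D.r k) := by
      rcases eq_or_lt_of_le hs with rfl | hlt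
      · exact ⟨(commute_coPart_self (D.sq _)).1.symm, (commute_coPart_self (D.sq _)).2.symm⟩
      · exact ⟨D.commute_alg (ne_of_lt hlt) (D.u_mem s) (D.r_mem k),
          D.commute_alg (ne_of_lt hlt) (star_mem (D.u_mem s)) (D.r_mem k)⟩
    exact (commute_join hc.1 (D.sqZero s) hc1.1 hc1.2 hu.1 hu.2).2.2.symm
  have hq : D.r k * T q = 0 := by
    rw [T, slotProd_split k fun j hj => D.commute_alg hj.symm (X_mem q _) (X_mem q j), ← mul_assoc,
      r_mul_X (top_mem q), zero_mul]
  have hp : T p = D.r k * slotProd (Function.update (X p) k 1) := by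
    rw [T, slotProd_split k fun j hj => D.commute_alg hj.symm (X_mem p _) (X_mem p j)]
    congr 1
    exact if_neg hkp
  rw [V, hp, ← mul_assoc (liftV _ _), ← (hcomm _ h.le).eq, mul_assoc (D.r k), star_mul, star_r,
    mul_assoc _ (D.r k), ← mul_assoc (D.r k), V, (hcomm _ le_rfl).eq, mul_assoc _ (D.r k), hq,
    mul_zero, mul_zero]

theorem inner_ne {p q : D.Item} (hne : p ≠ q) : star (V p * T p) * (V q * T q) = 0 := by
  rcases lt_trichotomy (top p) (top q) with h | h | h
  · exact inner_top_lt h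
  · exact inner_same_top_ne hne h
  · have := congrArg star (inner_top_lt h)
    simpa [star_mul, mul_assoc] using this

variable (D)

/-- The sum of the lifted vectors. -/
noncomputable def W : B := ∑ p : D.Item, V p * T p

/-- `a* β² a`. -/
def P (i : Fin D.N) (l : Fin D.m) : B := star (D.a i l) * D.β i * D.β i * D.a i l

theorem P_mem (i : Fin D.N) (l : Fin D.m) : D.P i l ∈ D.alg i :=
  mul_mem (mul_mem (mul_mem (star_mem (D.a_mem i l)) (D.β_mem i)) (D.β_mem i)) (D.a_mem i l)

theorem star_W_mul_W : star D.W * D.W =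
    ∑ p : D.Item, slotProd (fun i =>
      D.r i * (if i ∈ p.1.1 then D.P i p.1.2 else 1) * D.r i) := by
  rw [W, star_sum, Finset.sum_mul_sum]
  refine Finset.sum_congr rfl fun p _ => ?_
  rw [Finset.sum_eq_single p (fun q _ hq => inner_ne hq.symm) (by simp), inner_same_top rfl,
    star_T_mul_T]
  congr 1
  funext i
  simp only [Pi.mul_apply, Pi.star_apply, X, P]
  split_ifs
  · rw [star_mul, star_mul, D.star_r, mul_assoc (D.r i), ← mul_assoc (star (D.a i p.1.2) * _),
      mul_assoc (star (D.a i p.1.2)), ← mul_assoc (star (D.u i * D.β i)), ← mul_assoc, D.β_gram]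
    simp only [mul_assoc]
  · simp only [star_mul, D.star_r, D.sa, mul_assoc]
  · simp [D.star_r]

theorem exists_item (L : Fin D.N → Fin D.m) : ∃ p : D.Item, ∀ i ∈ p.1.1, L i = p.1.2 := by
  obtain ⟨l, hl⟩ := Fintype.exists_lt_card_fiber_of_mul_lt_card L (n := D.m)
    (by simpa using D.hN)
  obtain ⟨S, hS, hcard⟩ := Finset.exists_subset_card_eq (Nat.succ_le_of_lt hl)
  exact ⟨⟨(S, l), hcard⟩, fun i hi => (Finset.mem_filter.mp (hS hi)).2⟩

/-- The entries used to compare a word with an item. -/
noncomputable def f (p : D.Item) (i : Fin D.N) (k : Fin D.m) : B :=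
  if i ∈ p.1.1 then (if k = p.1.2 then D.P i k else 0) else D.P i k

theorem f_term_nonneg (p : D.Item) (L : Fin D.N → Fin D.m) :
    0 ≤ slotProd (fun i => D.f p i (L i)) := by
  set Z : Fin D.N → B := fun i =>
    if i ∈ p.1.1 then (if L i = p.1.2 then D.β i * D.a i (L i) else 0) else D.β i * D.a i (L i)
    with hZ
  have hm : ∀ i, Z i ∈ D.alg i := fun i => by
    simp only [hZ]
    split_ifs
    exacts [mul_mem (D.β_mem i) (D.a_mem i _), zero_mem _, mul_mem (D.β_mem i) (D.a_mem i _)]
  have e : (fun i => D.f p i (L i)) = star Z * Z := by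
    funext i
    simp only [f, hZ, Pi.mul_apply, Pi.star_apply, P]
    split_ifs <;> simp [star_mul, D.sa, mul_assoc]
  rw [e]
  exact slotProd_star_mul_self_nonneg (D.comm_pair hm hm)
    (D.comm_pair (fun i => star_mem (hm i)) hm)

theorem one_le_sum : (1 : B) ≤
    ∑ p : D.Item, slotProd (fun i => if i ∈ p.1.1 then D.P i p.1.2 else 1) := by
  have hsum : ∀ i, ∑ l, D.P i l = 1 := D.sum_eq
  have h1 : (1 : B) = ∑ L : Fin D.N → Fin D.m, slotProd (fun i => D.P i (L i)) := by
    rw [← slotProd_sum, funext hsum]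
    simp [slotProd]
  choose g hg using D.exists_item
  refine le_trans (le_of_eq (h1.trans (Finset.sum_fiberwise Finset.univ g _).symm)) ?_
  refine Finset.sum_le_sum fun p _ => ?_
  have hp : slotProd (fun i => if i ∈ p.1.1 then D.P i p.1.2 else 1) =
      ∑ L : Fin D.N → Fin D.m, slotProd (fun i => D.f p i (L i)) := by
    rw [← slotProd_sum]
    congr 1
    funext i
    unfold f
    split_ifs <;> simp [hsum]
  rw [hp]
  refine le_trans (le_of_eq (Finset.sum_congr rfl fun L hL => ?_))
    (Finset.sum_le_sum_of_subset_of_nonneg (Finset.subset_univ _) fun L _ _ => D.f_term_nonneg p L)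
  congr 1
  funext i
  obtain rfl := (Finset.mem_filter.mp hL).2
  unfold f
  by_cases hi : i ∈ (g L).1.1
  · rw [if_pos hi, if_pos (hg L i hi)]
  · rw [if_neg hi]

theorem Q_le_star_W_mul_W : D.Q D.N ≤ star D.W * D.W := by
  have hQ : D.Q D.N = slotProd (D.r * D.r) := by
    rw [Q]
    congr 1
    funext k
    simp [k.isLt]
  have hR : star (slotProd D.r) = slotProd D.r := by
    rw [slotProd_star (D.comm_pair D.r_mem D.r_mem)]
    congr 1
    funext i
    exact D.star_r i
  have key := star_left_conjugate_le_conjugate D.one_le_sum (slotProd D.r)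
  rw [hR, mul_one, slotProd_mul (D.comm_pair D.r_mem D.r_mem), ← hQ, Finset.mul_sum,
    Finset.sum_mul] at key
  refine key.trans_eq ?_
  rw [star_W_mul_W]
  refine Finset.sum_congr rfl fun p _ => ?_
  have hm : ∀ i, (if i ∈ p.1.1 then D.P i p.1.2 else 1) ∈ D.alg i := fun i => by
    split_ifs
    exacts [D.P_mem i _, one_mem _]
  rw [slotProd_mul (D.comm_pair D.r_mem hm)]
  exact slotProd_mul (D.comm_pair (X := D.r * fun i => if i ∈ p.1.1 then D.P i p.1.2 else 1)
    (fun i => mul_mem (D.r_mem i) (hm i)) D.r_mem)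

theorem c_fix_V (p : D.Item) : ∀ i, (top p : ℕ) + 1 ≤ i → i ≤ D.N →
    star (D.c i) * D.c i * (V p * T p) = V p * T p := by
  intro i hi hiN
  induction i, hi using Nat.le_induction with
  | base =>
    have hc := (D.c_spec (top p) (top p).isLt.le).1
    have h1 := D.c_comm_slot (top p) (D.u_mem (top p))
    have h2 := D.c_comm_slot (top p) (star_mem (D.u_mem (top p)))
    rw [D.c_succ]
    exact join_liftV hc (D.sqZero _) h1.1 h2.1 (fix_T p)
  | succ i hle ih =>
    set k : Fin D.N := ⟨i, hiN⟩ with hk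
    have hc := (D.c_spec i (Nat.le_of_succ_le hiN)).1
    have h1 := D.c_comm_slot k (D.u_mem k)
    have h2 := D.c_comm_slot k (star_mem (D.u_mem k))
    rw [show D.c (i + 1) = join (D.c i) (D.u k) from D.c_succ k]
    exact join_persist hc (D.sqZero k) h1.1 h2.1 (ih (Nat.le_of_succ_le hiN))

theorem c_mul_W : star (D.c D.N) * D.c D.N * D.W = D.W := by
  rw [W, Finset.mul_sum]
  exact Finset.sum_congr rfl fun p _ =>
    D.c_fix_V p D.N (top p).isLt le_rfl

omit D in
theorem exists_pair (D : Slots B) : ∃ c s : B, c * c = 0 ∧ star s * s = 1 - star c * c - c * star c ∧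
    star c * c * s = s := by
  obtain ⟨hc, -⟩ := D.c_spec D.N le_rfl
  have h1 : 1 - sPart (D.c D.N) ≤ (2 : ℝ) ^ D.N • (star D.W * D.W) :=
    (D.one_sub_sPart_c_le D.N le_rfl).trans
      (smul_le_smul_of_nonneg_left D.Q_le_star_W_mul_W (by positivity))
  obtain ⟨s, hs1, hs2⟩ := exists_partial_sqrt (by positivity)
    (sub_nonneg.mpr (sPart_le_one hc)) h1 D.c_mul_W
  exact ⟨D.c D.N, s, hc.1, by rw [hs1, sPart, sub_add_eq_sub_sub], hs2⟩

end Slots

end Vale.Agent.P101
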