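import Vale.Agent.P101.Simple
import Vale.Agent.P101.Copies

/-! P101: Stage A, a self-adjoint element whose commutators generate the whole ideal. -/

namespace Vale.Agent.P101

open scoped ComplexInnerProductSpace

variable {B : Type*} [CStarAlgebra B]

/-- The commutator. -/
def comm {R : Type*} [Ring R] (x y : R) : R := x * y - y * x

lemma comm_sum {R : Type*} [Ring R] {ι : Type*} (s : Finset ι) (x : R) (f : ι → R) :
    comm x (∑ i ∈ s, f i) = ∑ i ∈ s, comm x (f i) := by
  simp [comm, Finset.mul_sum, Finset.sum_mul, Finset.sum_sub_distrib]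

lemma comm_mul {R : Type*} [Ring R] (x a b : R) :
    comm x (a * b) = comm x a * b + a * comm x b := by
  simp only [comm, sub_mul, mul_sub, mul_assoc]; abel

lemma comm_of_commute {R : Type*} [Ring R] {x y : R} (h : Commute x y) : comm x y = 0 :=
  sub_eq_zero.2 h

lemma map_comm {R T F : Type*} [Ring R] [Ring T] [FunLike F R T] [RingHomClass F R T] (φ : F)
    (x y : R) : φ (comm x y) = comm (φ x) (φ y) := by
  simp [comm]

/-- The conjugate of a functional. -/
noncomputable def starDual {E : Type*} [CStarAlgebra E] (f : E →ₗ[ℂ] ℂ) : E →ₗ[ℂ] ℂ where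
  toFun x := star (f (star x))
  map_add' x y := by simp
  map_smul' r x := by simp

/-- In a maximal ideal, generating copies of one algebra cannot all have central sums. -/
lemma no_maxIdeal {E F : Type*} [CStarAlgebra E] [CStarAlgebra F] {m N : ℕ} (g : Fin m → F)
    (hg : ∀ l, IsSelfAdjoint (g l)) (l : Fin N → Fin m) (a c d : Fin N → F)
    (hid : ∑ t, a t * comm (g (l t)) (c t) * d t = 1)
    (ψ : Fin (m + 1) → (F →⋆ₐ[ℂ] E))
    (hcomm : ∀ i j, i ≠ j → ∀ x y, Commute (ψ i x) (ψ j y))
    (hgen : cstarGen (⋃ i, Set.range (ψ i)) = ⊤) (J : MaxIdeal E)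
    (hJ : ∀ e, comm e (∑ i, ∑ k ∈ Finset.univ.erase i, ∑ r, ψ i (g r) * ψ k (g r)) ∈
      J.toSubmodule) : False := by
  classical
  set H := ∑ i, ∑ k ∈ Finset.univ.erase i, ∑ r, ψ i (g r) * ψ k (g r) with hH
  -- the double commutator
  have hdd : ∀ i k, i ≠ k → ∀ x y,
      ∑ r, ψ i (comm x (g r)) * ψ k (comm y (g r)) ∈ J.toSubmodule := by
    intro i k hik x y
    have h2 : comm (ψ k y) (comm (ψ i x) H) ∈ J.toSubmodule := by
      rw [comm]
      exact J.toSubmodule.sub_mem (J.mul_left _ (hJ _)) (J.mul_right _ (hJ _))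
    have hterm : ∀ i' k', i' ≠ k' → ∀ r,
        comm (ψ k y) (comm (ψ i x) (ψ i' (g r) * ψ k' (g r))) =
          (if i' = i ∧ k' = k then ψ i (comm x (g r)) * ψ k (comm y (g r)) else 0) +
            if i' = k ∧ k' = i then ψ i (comm x (g r)) * ψ k (comm y (g r)) else 0 := by
      intro i' k' hne r
      rcases eq_or_ne i' i with rfl | hi
      · have e1 : comm (ψ i' x) (ψ i' (g r) * ψ k' (g r)) =
            ψ i' (comm x (g r)) * ψ k' (g r) := by
          rw [comm_mul, comm_of_commute (hcomm i' k' hne _ _), mul_zero, add_zero, ← map_comm]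
        rw [e1, comm_mul, comm_of_commute (hcomm k i' hik.symm _ _), zero_mul, zero_add,
          if_neg (show ¬(i' = k ∧ k' = i') from fun h => hik h.1), add_zero]
        rcases eq_or_ne k' k with rfl | hk
        · rw [if_pos ⟨rfl, rfl⟩, ← map_comm]
        · rw [if_neg (show ¬(i' = i' ∧ k' = k) from fun h => hk h.2),
            comm_of_commute (hcomm k k' hk.symm _ _), mul_zero]
      · rw [if_neg (show ¬(i' = i ∧ k' = k) from fun h => hi h.1), zero_add]
        rcases eq_or_ne k' i with rfl | hk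
        · have e1 : comm (ψ k' x) (ψ i' (g r) * ψ k' (g r)) =
              ψ i' (g r) * ψ k' (comm x (g r)) := by
            rw [comm_mul, comm_of_commute (hcomm k' i' hi.symm _ _), zero_mul, zero_add, ← map_comm]
          rw [e1, comm_mul, comm_of_commute (hcomm k k' hik.symm _ _), mul_zero, add_zero]
          rcases eq_or_ne i' k with rfl | hi'
          · rw [if_pos ⟨rfl, rfl⟩, ← map_comm]
            exact (hcomm i' k' hne _ _).eq
          · rw [if_neg (show ¬(i' = k ∧ k' = k') from fun h => hi' h.1),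
              comm_of_commute (hcomm k i' hi'.symm _ _), zero_mul]
        · rw [if_neg (show ¬(i' = k ∧ k' = i) from fun h => hk h.2),
            comm_of_commute (((hcomm i i' hi.symm x (g r))).mul_right (hcomm i k' hk.symm x (g r)))]
          simp [comm]
    have hcalc : comm (ψ k y) (comm (ψ i x) H) =
        (2 : ℂ) • ∑ r, ψ i (comm x (g r)) * ψ k (comm y (g r)) := by
      simp only [hH, comm_sum]
      rw [Finset.sum_congr rfl fun i' _ => Finset.sum_congr rfl fun k' hk' =>
        Finset.sum_congr rfl fun r _ => hterm i' k' (Finset.ne_of_mem_erase hk').symm r]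
      simp only [Finset.sum_add_distrib, two_smul]
      congr 1
      · rw [Finset.sum_eq_single i (fun i' _ hne => by simp [hne]) (by simp),
          Finset.sum_eq_single k (fun k' _ hne => by simp [hne])
            (fun h => absurd (Finset.mem_erase.2 ⟨hik.symm, Finset.mem_univ k⟩) h)]
        simp
      · rw [Finset.sum_eq_single k (fun i' _ hne => by simp [hne]) (by simp),
          Finset.sum_eq_single i (fun k' _ hne => by simp [hne])
            (fun h => absurd (Finset.mem_erase.2 ⟨hik, Finset.mem_univ i⟩) h)]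
        simp
    rw [hcalc] at h2
    exact (J.toSubmodule.smul_mem_iff two_ne_zero).1 h2
  -- the vectors
  have hne : ∀ i, ∃ (f : E →ₗ[ℂ] ℂ) (x : F), (∀ z ∈ J.toSubmodule, f z = 0) ∧
      ∃ r, f (ψ i (comm x (g r))) ≠ 0 := by
    intro i
    obtain ⟨t, ht⟩ : ∃ t, ψ i (comm (c t) (g (l t))) ∉ J.toSubmodule := by
      by_contra hall; push Not at hall
      refine J.one_notMem ?_
      rw [← map_one (ψ i), ← hid, map_sum]
      refine J.toSubmodule.sum_mem fun t _ => ?_
      rw [map_mul, map_mul]
      refine J.mul_right _ (J.mul_left _ ?_)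
      rw [show comm (g (l t)) (c t) = -comm (c t) (g (l t)) by simp [comm], map_neg]
      exact J.toSubmodule.neg_mem (hall t)
    obtain ⟨f, hf, hfJ⟩ := Submodule.exists_dual_map_eq_bot_of_notMem ht inferInstance
    exact ⟨f, c t, fun z hz => LinearMap.mem_ker.1 (LinearMap.le_ker_iff_map.2 hfJ hz), l t, hf⟩
  choose f x hfJ hf using hne
  set u : Fin (m + 1) → EuclideanSpace ℂ (Fin m) :=
    fun i => WithLp.toLp 2 fun r => f i (ψ i (comm (x i) (g r))) with hu
  have horth : ∀ i k, i ≠ k → (inner ℂ (u k) (u i) : ℂ) = 0 := by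
    intro i k hik
    have hsplit : Splits (Set.range (ψ i)) (⋃ j ∈ ({i}ᶜ : Set (Fin (m + 1))), Set.range (ψ j)) := by
      refine ⟨?_, ?_, ?_, ?_⟩
      · rintro _ ⟨z, rfl⟩; exact ⟨star z, map_star _ z⟩
      · intro z hz
        obtain ⟨j, hj, w, rfl⟩ := Set.mem_iUnion₂.1 hz
        exact Set.mem_iUnion₂.2 ⟨j, hj, star w, map_star _ w⟩
      · rintro _ ⟨z, rfl⟩ _ hw
        obtain ⟨j, hj, w, rfl⟩ := Set.mem_iUnion₂.1 hw
        exact hcomm i j (fun e => hj e.symm) _ _
      · rw [← hgen]
        congr 1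
        ext z
        simp only [Set.mem_union, Set.mem_iUnion, Set.mem_compl_iff, Set.mem_singleton_iff]
        constructor
        · rintro (h | ⟨j, -, h⟩)
          exacts [⟨i, h⟩, ⟨j, h⟩]
        · rintro ⟨j, h⟩
          by_cases e : j = i
          exacts [Or.inl (e ▸ h), Or.inr ⟨j, e, h⟩]
    have h1 := J.factor hsplit (fun r => ψ i (comm (x i) (g r)))
      (fun r => ψ k (comm (star (x k)) (g r))) (fun r y hy => ?_) (fun r y hy => ?_)
      (hdd i k hik (x i) (star (x k))) (starDual (f k))
      fun z hz => by simp [starDual, hfJ k _ (J.star_mem hz)]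
    · have h3 := hfJ i _ h1
      simp only [map_sum, map_smul, smul_eq_mul] at h3
      rw [PiLp.inner_apply]
      refine Eq.trans ?_ (neg_eq_zero.2 h3)
      rw [← Finset.sum_neg_distrib]
      refine Finset.sum_congr rfl fun r _ => ?_
      have hstar : star (ψ k (comm (star (x k)) (g r))) = -ψ k (comm (x k) (g r)) := by
        rw [← map_star, ← map_neg]
        congr 1
        simp [comm, (hg r).star_eq]
      have hsd : starDual (f k) (ψ k (comm (star (x k)) (g r))) =
          -star (f k (ψ k (comm (x k) (g r)))) := by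
        show star (f k (star _)) = _
        rw [hstar, map_neg, star_neg]
      simp only [hu, RCLike.inner_apply, hsd, Complex.star_def]
      ring
    · obtain ⟨j, hj, w, rfl⟩ := Set.mem_iUnion₂.1 hy
      exact hcomm i j (fun e => hj e.symm) _ _
    · obtain ⟨w, rfl⟩ := hy
      exact hcomm k i hik.symm _ _
  have hli : LinearIndependent ℂ u := linearIndependent_of_ne_zero_of_inner_eq_zero
    (fun i hi => by
      obtain ⟨r, hr⟩ := hf i
      exact hr (by simpa [hu] using congrArg (fun v : EuclideanSpace ℂ (Fin m) => v r) hi))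
    (fun i k hik => horth k i hik.symm)
  simpa using hli.fintype_card_le_finrank

theorem exists_full_commutator (hB : HasCopies B) (h : IsEmpty (B →⋆ₐ[ℂ] ℂ)) :
    ∃ (H : B) (n : ℕ) (a c d : Fin n → B),
      IsSelfAdjoint H ∧ ∑ t, a t * (H * c t - c t * H) * d t = 1 := by
  classical
  obtain ⟨m, N, g, l, a, c, d, hg, hid⟩ := exists_commutator_identity h
  set F : Finset B := Finset.univ.image g ∪ (Finset.univ.image a ∪
    (Finset.univ.image c ∪ Finset.univ.image d))
  have hgF : ∀ r, g r ∈ cstarGen (F : Set B) := fun r => mem_cstarGen_of_mem (by simp [F])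
  have haF : ∀ t, a t ∈ cstarGen (F : Set B) := fun r => mem_cstarGen_of_mem (by simp [F])
  have hcF : ∀ t, c t ∈ cstarGen (F : Set B) := fun r => mem_cstarGen_of_mem (by simp [F])
  have hdF : ∀ t, d t ∈ cstarGen (F : Set B) := fun r => mem_cstarGen_of_mem (by simp [F])
  obtain ⟨φ, hφ, -⟩ := hB.exists_copies F ∅ (m + 1)
  set G : Set B := ⋃ i, Set.range (φ i)
  have hmem : ∀ i z, φ i z ∈ cstarGen G := fun i z =>
    mem_cstarGen_of_mem (Set.mem_iUnion.2 ⟨i, z, rfl⟩)
  set ψ : Fin (m + 1) → (cstarGen (F : Set B) →⋆ₐ[ℂ] cstarGen G) :=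
    fun i => (φ i).codRestrict (cstarGen G) (hmem i)
  have hψ : ∀ i z, (ψ i z : B) = φ i z := fun i z => rfl
  set g' : Fin m → cstarGen (F : Set B) := fun r => ⟨g r, hgF r⟩
  have hg' : ∀ r, IsSelfAdjoint (g' r) := fun r => Subtype.ext (hg r)
  set H' : cstarGen G := ∑ i, ∑ k ∈ Finset.univ.erase i, ∑ r, ψ i (g' r) * ψ k (g' r)
  rcases exists_identity_or_maxIdeal {z : cstarGen G | ∃ e, z = comm e H'} with
    ⟨n, A, C, X, hX, hsum⟩ | ⟨J, hJ⟩
  · choose e he using hX
    refine ⟨(H' : B), n, fun t => -(A t : B), fun t => (e t : B), fun t => (C t : B), ?_, ?_⟩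
    · refine IsSelfAdjoint.map ?_ (cstarGen G).subtype
      refine isSelfAdjoint_sum _ fun i _ => isSelfAdjoint_sum _ fun k hk =>
        isSelfAdjoint_sum _ fun r _ => ?_
      exact ((hg' r).map (ψ i)).commute_iff ((hg' r).map (ψ k)) |>.1
        (Subtype.ext (hφ i k (Finset.ne_of_mem_erase hk).symm _ _))
    · have := congrArg (Subtype.val) hsum
      simp only [AddSubmonoidClass.coe_finsetSum, MulMemClass.coe_mul, OneMemClass.coe_one] at this
      rw [← this]
      refine Finset.sum_congr rfl fun t _ => ?_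
      rw [he t]
      simp only [comm, AddSubgroupClass.coe_sub, MulMemClass.coe_mul, neg_mul, ← mul_neg, neg_sub]
  · refine absurd (no_maxIdeal g' hg' l (fun t => ⟨a t, haF t⟩) (fun t => ⟨c t, hcF t⟩)
      (fun t => ⟨d t, hdF t⟩) (Subtype.ext ?_) ψ
      (fun i j hij x y => Subtype.ext (hφ i j hij x y)) ?_ J fun e => hJ ⟨e, rfl⟩) not_false
    · simpa [comm, g'] using hid
    · refine eq_top_iff.2 fun z _ => ?_
      exact cstarGen_induction (T := cstarGen (⋃ i, Set.range (ψ i)))
        (StarSubalgebra.isClosed_topologicalClosure _)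
        (fun b hb => by
          obtain ⟨i, w, rfl⟩ := Set.mem_iUnion.1 hb
          exact mem_cstarGen_of_mem (Set.mem_iUnion.2 ⟨i, w, rfl⟩)) z

end Vale.Agent.P101
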